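import Vale.Agent.P131.MathlibUsed

set_option linter.all false

section

section

namespace Vale.Agent.P131

open MeasureTheory Finset

/-- exp of the sum of (L - d j) over j below n -/
noncomputable def W (d : ℕ → ℝ) (L : ℝ) (n : ℕ) : ℝ := Real.exp (∑ j ∈ range n, (L - d j))

/-- The potential on the integers: right increments d, left increments d'. -/
noncomputable def hh (d d' : ℕ → ℝ) (z : ℤ) : ℝ :=
  (∑ j ∈ range (-z).toNat, d' j) - ∑ j ∈ range z.toNat, d j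

/-- Block number of n; block a has exactly 2^(a+8) elements. -/
def blk (n : ℕ) : ℕ := Nat.log 2 (n + 256) - 8

/-- Exponents of the dilations: ee (a+1) = ee a + (a+4). -/
def ee (a : ℕ) : ℕ := ∑ i ∈ range a, (i + 4)

/-- The phase in block a. -/
noncomputable def ph (a : ℕ) (t : ℝ) : ℝ := Int.fract (2 ^ (ee a) * t)

/-- right increments -/
noncomputable def dr (t : ℝ) (n : ℕ) : ℝ := 4 ^ (blk n) * (1 + ph (blk n) t)

/-- left increments -/
noncomputable def dl (t : ℝ) (n : ℕ) : ℝ := 4 ^ (blk n) * (4 - ph (blk n) t)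

/-- the potential -/
noncomputable def hp (t : ℝ) (z : ℤ) : ℝ := hh (dr t) (dl t) z

/-- The measure on the base space times the integers. -/
noncomputable def mu : Measure (ℝ × ℤ) := (volume : Measure ℝ).prod Measure.count

/-- The Hilbert space. -/
abbrev Hs : Type := Lp ℂ 2 mu

end Vale.Agent.P131
end
end

section

section

namespace Vale.Agent.P131

open Polynomial

/-- Coefficient height lower bound for a product of two polynomials. -/
theorem poly_mul_coeff_lower (K : ℕ) (P Q : ℂ[X]) (hP : P.natDegree ≤ K) (hQ : Q.natDegree ≤ K)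
    (B : ℝ) (hB : ∀ m, ‖(P * Q).coeff m‖ ≤ B) (i j : ℕ) :
    ‖P.coeff i‖ * ‖Q.coeff j‖ ≤ 4 ^ K * (2 * K + 1) * B := by
  have hB0 : 0 ≤ B := le_trans (norm_nonneg _) (hB 0)
  have h1 : ∀ (R : ℂ[X]) (hR : R.natDegree ≤ K) (n : ℕ),
      ‖R.coeff n‖ ≤ 2 ^ K * R.mahlerMeasure := by
    intro R hR n
    refine (norm_coeff_le_choose_mul_mahlerMeasure n R).trans ?_
    have h2 : ((R.natDegree.choose n : ℕ) : ℝ) ≤ 2 ^ K := by
      have h3 : R.natDegree.choose n ≤ 2 ^ K :=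
        (Nat.choose_le_two_pow _ _).trans (Nat.pow_le_pow_right (by norm_num) hR)
      exact_mod_cast h3
    exact mul_le_mul_of_nonneg_right h2 (mahlerMeasure_nonneg R)
  have h4 : (P * Q).mahlerMeasure ≤ (2 * K + 1) * B := by
    refine (mahlerMeasure_le_sum_norm_coeff (P * Q)).trans ?_
    rw [Polynomial.sum_def]
    have hd : (P * Q).natDegree ≤ 2 * K := by
      refine (natDegree_mul_le).trans ?_
      omega
    have hsub : (P * Q).support ⊆ Finset.range (2 * K + 1) := by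
      refine (supp_subset_range_natDegree_succ).trans ?_
      exact Finset.range_subset_range.2 (by omega)
    calc ∑ n ∈ (P * Q).support, ‖(P * Q).coeff n‖
        ≤ ∑ n ∈ Finset.range (2 * K + 1), ‖(P * Q).coeff n‖ :=
          Finset.sum_le_sum_of_subset_of_nonneg hsub (fun _ _ _ => norm_nonneg _)
      _ ≤ ∑ n ∈ Finset.range (2 * K + 1), B := Finset.sum_le_sum (fun n _ => hB n)
      _ = (2 * K + 1) * B := by simp
  calc ‖P.coeff i‖ * ‖Q.coeff j‖
      ≤ (2 ^ K * P.mahlerMeasure) * (2 ^ K * Q.mahlerMeasure) :=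
        mul_le_mul (h1 P hP i) (h1 Q hQ j) (norm_nonneg _)
          (mul_nonneg (by positivity) (mahlerMeasure_nonneg P))
    _ = 4 ^ K * (P * Q).mahlerMeasure := by
        rw [mahlerMeasure_mul, show (4 : ℝ) = 2 * 2 by norm_num, mul_pow]; ring
    _ ≤ 4 ^ K * ((2 * K + 1) * B) := mul_le_mul_of_nonneg_left h4 (by positivity)
    _ = 4 ^ K * (2 * K + 1) * B := by ring

end Vale.Agent.P131
end
end

section

section

namespace Vale.Agent.P131

open Finset

theorem W_pos (d : ℕ → ℝ) (L : ℝ) (n : ℕ) : 0 < W d L n := Real.exp_pos _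

theorem W_zero (d : ℕ → ℝ) (L : ℝ) : W d L 0 = 1 := by simp [W]

theorem W_succ (d : ℕ → ℝ) (L : ℝ) (n : ℕ) : W d L (n + 1) = W d L n * Real.exp (L - d n) := by
  unfold W
  rw [sum_range_succ, Real.exp_add]

theorem W_shift (d : ℕ → ℝ) (L L' : ℝ) (n : ℕ) :
    W d L' n = W d L n * Real.exp (n * (L' - L)) := by
  unfold W
  rw [← Real.exp_add]
  congr 1
  rw [sum_sub_distrib, sum_sub_distrib]
  simp
  ring

theorem W_le_succ {d : ℕ → ℝ} {L : ℝ} {n : ℕ} (h : d n ≤ L) : W d L n ≤ W d L (n + 1) := by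
  rw [W_succ]
  have : 1 ≤ Real.exp (L - d n) := Real.one_le_exp (by linarith)
  nlinarith only [this, W_pos d L n]

theorem W_succ_le {d : ℕ → ℝ} {L : ℝ} {n : ℕ} (h : L ≤ d n) : W d L (n + 1) ≤ W d L n := by
  rw [W_succ]
  have : Real.exp (L - d n) ≤ 1 := Real.exp_le_one_iff.2 (by linarith)
  nlinarith only [this, W_pos d L n]

theorem W_le_of_le {d : ℕ → ℝ} {L : ℝ} {n k : ℕ} (hnk : n ≤ k)
    (h : ∀ j, n ≤ j → j < k → d j ≤ L) : W d L n ≤ W d L k := by
  induction k, hnk using Nat.le_induction with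
  | base => exact le_rfl
  | succ k hk ih =>
    exact (ih (fun j h1 h2 => h j h1 (by omega))).trans (W_le_succ (h k hk (by omega)))

theorem W_ge_of_le {d : ℕ → ℝ} {L : ℝ} {n k : ℕ} (hnk : n ≤ k)
    (h : ∀ j, n ≤ j → j < k → L ≤ d j) : W d L k ≤ W d L n := by
  induction k, hnk using Nat.le_induction with
  | base => exact le_rfl
  | succ k hk ih =>
    exact (W_succ_le (h k hk (by omega))).trans (ih (fun j h1 h2 => h j h1 (by omega)))

/-- N is an index where the majorant a k W d L k is maximal. -/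
def IsArg (α d : ℕ → ℝ) (L : ℝ) (N : ℕ) : Prop := ∀ k, α k * W d L k ≤ α N * W d L N

theorem growth_ge {c : ℝ} (hc : 0 < c) {d : ℕ → ℝ} (hg : ∀ n : ℕ, c * ((n : ℝ) + 1) ^ 2 ≤ d n)
    {L : ℝ} (hL : 0 ≤ L) {j : ℕ} (hj : Real.sqrt (L / c) ≤ j) : L ≤ d j := by
  have h1 : L / c ≤ ((j : ℝ) + 1) ^ 2 := by
    have h2 : Real.sqrt (L / c) ^ 2 = L / c := Real.sq_sqrt (by positivity)
    have h3 := Real.sqrt_nonneg (L / c)
    nlinarith only [h2, hj, h3]
  have h4 : L ≤ c * ((j : ℝ) + 1) ^ 2 := by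
    rw [div_le_iff₀ hc] at h1
    linarith
  exact h4.trans (hg j)

theorem exists_arg {c : ℝ} (hc : 0 < c) {d : ℕ → ℝ}
    (hg : ∀ n : ℕ, c * ((n : ℝ) + 1) ^ 2 ≤ d n) {α : ℕ → ℝ} (hα : Antitone α)
    (hα0 : ∀ n, 0 < α n) {L : ℝ} (hL : 0 ≤ L) : ∃ N, IsArg α d L N := by
  obtain ⟨n0, hn0⟩ := exists_nat_ge (Real.sqrt (L / c))
  obtain ⟨N, hN, hmax⟩ := exists_max_image (range (n0 + 1)) (fun k => α k * W d L k)
    ⟨0, by simp only [mem_range, lt_add_iff_pos_left, Order.lt_add_one_iff, zero_le]⟩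
  refine ⟨N, fun k => ?_⟩
  by_cases hk : k ≤ n0
  · exact hmax k (by simp; omega)
  · push Not at hk
    refine le_trans ?_ (hmax n0 (by simp))
    have h1 : W d L k ≤ W d L n0 := W_ge_of_le hk.le (fun j hj _ =>
      growth_ge hc hg hL (hn0.trans (by exact_mod_cast hj)))
    exact mul_le_mul (hα hk.le) h1 (W_pos _ _ _).le (hα0 _).le

/-- small tail -/
theorem W_tail {d : ℕ → ℝ} {L : ℝ} (hL : 0 ≤ L) {k0 : ℕ} (h0 : ∀ j, 0 ≤ d j)
    (h1 : ∀ j, k0 ≤ j → 3 * L ≤ d j) {i : ℕ} (hi : 2 * k0 < i) :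
    W d L i ≤ Real.exp (-(2 * L)) := by
  unfold W
  apply Real.exp_le_exp.2
  have h2 : ∑ j ∈ range i, (L - d j) ≤ ∑ j ∈ range i, (if j < k0 then L else -(2 * L)) := by
    apply sum_le_sum
    intro j _
    split_ifs with h
    · linarith only [h0 j]
    · linarith only [h1 j (by omega)]
  refine h2.trans ?_
  obtain ⟨r, rfl⟩ : ∃ r, i = k0 + r := ⟨i - k0, by omega⟩
  rw [sum_range_add]
  have h3 : ∑ j ∈ range k0, (if j < k0 then L else -(2 * L)) = k0 * L := by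
    rw [sum_congr rfl (g := fun _ => L)]
    · simp
    · intro j hj; simp at hj; simp [hj]
  have h4 : ∑ j ∈ range r, (if k0 + j < k0 then L else -(2 * L)) = r * (-(2 * L)) := by
    rw [sum_congr rfl (g := fun _ => -(2 * L))]
    · simp
    · intro j hj; simp
  rw [h3, h4]
  have h5 : (k0 : ℝ) + 1 ≤ r := by exact_mod_cast (by omega : k0 + 1 ≤ r)
  nlinarith only [hL, h5]


theorem asymp {c : ℝ} (hc : 0 < c) {C4 c0 : ℝ} (hC4 : 0 ≤ C4) (hc0 : 0 < c0) (l : ℕ) :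
    ∃ L0 : ℝ, 0 < L0 ∧ ∀ L, L0 ≤ L → ∃ k0 : ℕ, l ≤ 2 * k0 ∧ Real.sqrt (3 * L / c) ≤ k0 ∧
      4 ^ (2 * k0) * (2 * ((2 * k0 : ℕ) : ℝ) + 1) * ((2 * ((2 * k0 : ℕ) : ℝ) + 1) * C4 *
        Real.exp (-L)) < c0 := by
  set K : ℝ := 216 / c + 12 with hK
  refine ⟨max 1 (max (c * l ^ 2) (2 * (K + Real.log ((C4 + 1) / c0)))), by positivity, ?_⟩
  intro L hL
  have hL1 : 1 ≤ L := (le_max_left _ _).trans hL
  have hL2 : c * l ^ 2 ≤ L := (le_max_left _ _).trans ((le_max_right _ _).trans hL)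
  have hL3 : 2 * (K + Real.log ((C4 + 1) / c0)) ≤ L :=
    (le_max_right _ _).trans ((le_max_right _ _).trans hL)
  have hs0 : 0 ≤ Real.sqrt (3 * L / c) := Real.sqrt_nonneg _
  have hs1 : Real.sqrt (3 * L / c) ^ 2 = 3 * L / c := Real.sq_sqrt (by positivity)
  refine ⟨⌈Real.sqrt (3 * L / c)⌉₊, ?_, Nat.le_ceil _, ?_⟩
  · have h1 : (l : ℝ) ≤ Real.sqrt (3 * L / c) := by
      apply Real.le_sqrt_of_sq_le
      rw [le_div_iff₀ hc]
      linarith
    have h2 : l ≤ ⌈Real.sqrt (3 * L / c)⌉₊ := by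
      exact_mod_cast h1.trans (Nat.le_ceil _)
    omega
  · set k0 := ⌈Real.sqrt (3 * L / c)⌉₊ with hk0
    have hk1 : (k0 : ℝ) ≤ Real.sqrt (3 * L / c) + 1 := (Nat.ceil_lt_add_one hs0).le
    have h4 : (2 * ((2 * k0 : ℕ) : ℝ) + 1) ≤ 4 ^ (2 * k0) := by
      have : 2 * (2 * k0) + 1 ≤ 4 ^ (2 * k0) := by
        have h5 : ∀ n : ℕ, 2 * n + 1 ≤ 4 ^ n := by
          intro n
          induction n with
          | zero => simp
          | succ n ih => rw [pow_succ]; omega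
        exact h5 _
      exact_mod_cast this
    have h6 : (4 : ℝ) ^ (2 * k0) ≤ Real.exp (4 * k0) := by
      have h7 : (4 : ℝ) ≤ Real.exp 2 := by
        have := Real.add_one_le_exp (1 : ℝ)
        have h8 : Real.exp 2 = Real.exp 1 * Real.exp 1 := by rw [← Real.exp_add]; norm_num
        nlinarith only [this, h8]
      calc (4 : ℝ) ^ (2 * k0) ≤ (Real.exp 2) ^ (2 * k0) := by (clear * - h7; gcongr)
        _ = Real.exp (4 * k0) := by
          rw [← Real.exp_nat_mul]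
          congr 1
          push_cast
          ring
    have h9 : 4 ^ (2 * k0) * (2 * ((2 * k0 : ℕ) : ℝ) + 1) * ((2 * ((2 * k0 : ℕ) : ℝ) + 1) * C4 *
        Real.exp (-L)) ≤ Real.exp (4 * k0) * Real.exp (4 * k0) * (Real.exp (4 * k0) * C4 *
        Real.exp (-L)) := by
      have h10 := h4.trans h6
      (clear * - h6 h10 hL1 hc hC4; gcongr)
    have h11 : Real.exp (4 * k0) * Real.exp (4 * k0) * (Real.exp (4 * k0) * C4 *
        Real.exp (-L)) = C4 * Real.exp (12 * k0 - L) := by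
      have : Real.exp (12 * k0 - L) = Real.exp (4 * k0) * Real.exp (4 * k0) * Real.exp (4 * k0)
          * Real.exp (-L) := by
        rw [← Real.exp_add, ← Real.exp_add, ← Real.exp_add]
        congr 1
        ring
      rw [this]; ring
    rw [h11] at h9
    refine lt_of_le_of_lt h9 ?_
    have h12 : 12 * (k0 : ℝ) - L ≤ -Real.log ((C4 + 1) / c0) := by
      have h13 : 12 * Real.sqrt (3 * L / c) ≤ L / 2 + 216 / c := by
        have h14 : 0 ≤ (Real.sqrt (3 * L / c) * c - 36) ^ 2 := sq_nonneg _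
        have h15 : 0 ≤ (Real.sqrt (3 * L / c) * c - 36) ^ 2 / c := by (clear * - hc; positivity)
        have h16 : (Real.sqrt (3 * L / c) * c - 36) ^ 2 / c
            = Real.sqrt (3 * L / c) ^ 2 * c - 72 * Real.sqrt (3 * L / c) + 36 ^ 2 / c := by
          field_simp
          ring
        rw [h16, hs1] at h15
        have h17 : 3 * L / c * c = 3 * L := by field_simp
        rw [h17] at h15
        have h18 : (36 : ℝ) ^ 2 / c = 6 * (216 / c) := by ring
        rw [h18] at h15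
        linarith only [h15]
      linarith only [hL3, hk1, h13]
    calc C4 * Real.exp (12 * k0 - L) ≤ C4 * Real.exp (-Real.log ((C4 + 1) / c0)) := by
          (clear * - h12 hC4; gcongr)
      _ = C4 * (c0 / (C4 + 1)) := by
          rw [Real.exp_neg, Real.exp_log (by positivity), inv_div]
      _ < c0 := by
          rw [mul_div_assoc', div_lt_iff₀ (by positivity)]
          nlinarith only [hc0]


/-- Truncated majorant. -/
noncomputable def Trunc (K : ℕ) (f : ℕ → ℂ) : Polynomial ℂ :=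
  ∑ n ∈ range (K + 1), Polynomial.monomial n (f n)

theorem Trunc_coeff (K : ℕ) (f : ℕ → ℂ) (n : ℕ) :
    (Trunc K f).coeff n = if n ≤ K then f n else 0 := by
  unfold Trunc
  rw [Polynomial.finsetSum_coeff]
  simp only [Polynomial.coeff_monomial]
  rw [Finset.sum_ite_eq' (range (K + 1)) n f]
  simp

theorem Trunc_natDegree (K : ℕ) (f : ℕ → ℂ) : (Trunc K f).natDegree ≤ K := by
  rw [Polynomial.natDegree_le_iff_coeff_eq_zero]
  intro N hN
  rw [Trunc_coeff, if_neg (by omega)]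

theorem trunc_mul_bound (K : ℕ) (f g : ℕ → ℂ) (D E : ℝ) (hD : 0 ≤ D) (hE : 0 ≤ E)
    (hfull : ∀ m : ℕ, ‖∑ p ∈ antidiagonal m, f p.1 * g p.2‖ ≤ D)
    (hf : ∀ i j, K < i → ‖f i‖ * ‖g j‖ ≤ E) (hg : ∀ i j, K < j → ‖f i‖ * ‖g j‖ ≤ E) (m : ℕ) :
    ‖(Trunc K f * Trunc K g).coeff m‖ ≤ (2 * (K : ℝ) + 1) * (D + E) := by
  have hK0 : (0 : ℝ) ≤ K := Nat.cast_nonneg _
  by_cases hm : 2 * K < m
  · rw [Polynomial.coeff_eq_zero_of_natDegree_lt, norm_zero]
    · (clear * - hD hE; positivity)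
    · refine lt_of_le_of_lt Polynomial.natDegree_mul_le ?_
      have := Trunc_natDegree K f
      have := Trunc_natDegree K g
      omega
  · push Not at hm
    rw [Polynomial.coeff_mul]
    have h1 : ∑ p ∈ antidiagonal m, (Trunc K f).coeff p.1 * (Trunc K g).coeff p.2
        = ∑ p ∈ antidiagonal m, f p.1 * g p.2
          - ∑ p ∈ antidiagonal m, (f p.1 * g p.2
            - (Trunc K f).coeff p.1 * (Trunc K g).coeff p.2) := by
      rw [sum_sub_distrib]; ring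
    rw [h1]
    refine (norm_sub_le _ _).trans ?_
    have h2 : ‖∑ p ∈ antidiagonal m, (f p.1 * g p.2
            - (Trunc K f).coeff p.1 * (Trunc K g).coeff p.2)‖ ≤ ∑ p ∈ antidiagonal m, E := by
      apply norm_sum_le_of_le
      intro p _
      by_cases hp1 : p.1 ≤ K
      · by_cases hp2 : p.2 ≤ K
        · rw [Trunc_coeff, Trunc_coeff, if_pos hp1, if_pos hp2, sub_self, norm_zero]
          exact hE
        · rw [Trunc_coeff K g, if_neg hp2, mul_zero, sub_zero, norm_mul]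
          exact hg _ _ (by omega)
      · rw [Trunc_coeff K f, if_neg hp1, zero_mul, sub_zero, norm_mul]
        exact hf _ _ (by omega)
    rw [sum_const, Nat.card_antidiagonal, nsmul_eq_mul] at h2
    have h3 : ((m + 1 : ℕ) : ℝ) ≤ 2 * (K : ℝ) + 1 := by
      exact_mod_cast (by omega : m + 1 ≤ 2 * K + 1)
    have h4 : ((m + 1 : ℕ) : ℝ) * E ≤ (2 * (K : ℝ) + 1) * E := by gcongr
    have h5 : D ≤ (2 * (K : ℝ) + 1) * D := by nlinarith only [hD]
    have h6 := hfull m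
    linarith only [h2, h4, h5, h6]

/-- convolution bound at parameter L -/
theorem conv_bound {d1 d2 : ℕ → ℝ} {x y : ℕ → ℂ} {α β : ℕ → ℝ}
    (hα0 : ∀ n, 0 < α n) (hβ0 : ∀ n, 0 < β n)
    (hx : ∀ n, ‖x n‖ ≤ α n) (hy : ∀ n, ‖y n‖ ≤ β n) (C : ℝ)
    (hconv : ∀ m : ℕ, 1 ≤ m →
      ‖∑ p ∈ antidiagonal m, (x p.1 * (W d1 0 p.1 : ℂ)) * (y p.2 * (W d2 0 p.2 : ℂ))‖
        ≤ C * (α (m + 1) * W d1 0 (m + 1) + β (m + 1) * W d2 0 (m + 1)))
    {L a : ℝ} (hap : 0 < a) (hN1 : ∀ i, α i * W d1 L i ≤ a) (hN2 : ∀ i, β i * W d2 L i ≤ a)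
    (m : ℕ) :
    ‖∑ p ∈ antidiagonal m, (x p.1 * (W d1 L p.1 : ℂ)) * (y p.2 * (W d2 L p.2 : ℂ))‖
        ≤ (2 * |C| + α 0 * β 0 * (Real.exp (d1 0) / α 1)) * (Real.exp (-L) * a) := by
  have hα0' := hα0 0
  have hβ0' := hβ0 0
  have hα1' := hα0 1
  have hexp1 : 1 ≤ Real.exp (-L) * a * (Real.exp (d1 0) / α 1) := by
    have h1 : α 1 * W d1 L 1 ≤ a := hN1 1
    have h2 : W d1 L 1 = Real.exp (L - d1 0) := by
      rw [show (1 : ℕ) = 0 + 1 from rfl, W_succ, W_zero, one_mul]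
    rw [h2] at h1
    have h3 : Real.exp (-L) * (α 1 * Real.exp (L - d1 0)) * (Real.exp (d1 0) / α 1) = 1 := by
      have h4 : Real.exp (-L) * Real.exp (L - d1 0) * Real.exp (d1 0) = 1 := by
        rw [← Real.exp_add, ← Real.exp_add]
        have : -L + (L - d1 0) + d1 0 = 0 := by ring
        rw [this, Real.exp_zero]
      calc Real.exp (-L) * (α 1 * Real.exp (L - d1 0)) * (Real.exp (d1 0) / α 1)
          = (Real.exp (-L) * Real.exp (L - d1 0) * Real.exp (d1 0)) * (α 1 / α 1) := by ring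
        _ = 1 := by rw [h4, div_self hα1'.ne', one_mul]
    have h5 : 0 < Real.exp (d1 0) / α 1 := div_pos (Real.exp_pos _) (hα0 1)
    calc (1 : ℝ) = Real.exp (-L) * (α 1 * Real.exp (L - d1 0)) * (Real.exp (d1 0) / α 1) := h3.symm
      _ ≤ Real.exp (-L) * a * (Real.exp (d1 0) / α 1) := by (clear * - h1 hα1'; gcongr)
  have hea : 0 < Real.exp (-L) * a := mul_pos (Real.exp_pos _) hap
  have hC3 : 0 ≤ α 0 * β 0 * (Real.exp (d1 0) / α 1) := by positivity
  rcases Nat.eq_zero_or_pos m with rfl | hm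
  · have h0 : ∑ p ∈ antidiagonal 0, (x p.1 * (W d1 L p.1 : ℂ)) * (y p.2 * (W d2 L p.2 : ℂ))
        = x 0 * y 0 := by
      simp [W_zero]
    rw [h0, norm_mul]
    have h1 : ‖x 0‖ * ‖y 0‖ ≤ α 0 * β 0 :=
      mul_le_mul (hx 0) (hy 0) (norm_nonneg _) (hα0 0).le
    have h2 : α 0 * β 0 ≤ α 0 * β 0 * (Real.exp (-L) * a * (Real.exp (d1 0) / α 1)) := by
      have : 0 < α 0 * β 0 := mul_pos (hα0 0) (hβ0 0)
      nlinarith only [hexp1, this]
    have h3 : 0 ≤ 2 * |C| * (Real.exp (-L) * a) := by (clear * - hap; positivity)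
    have h4 : α 0 * β 0 * (Real.exp (-L) * a * (Real.exp (d1 0) / α 1))
        = α 0 * β 0 * (Real.exp (d1 0) / α 1) * (Real.exp (-L) * a) := by ring
    rw [add_mul]
    linarith only [h1, h2, h3]
  · have h1 : ∑ p ∈ antidiagonal m, (x p.1 * (W d1 L p.1 : ℂ)) * (y p.2 * (W d2 L p.2 : ℂ))
        = (Real.exp (m * L) : ℂ) * ∑ p ∈ antidiagonal m,
          (x p.1 * (W d1 0 p.1 : ℂ)) * (y p.2 * (W d2 0 p.2 : ℂ)) := by
      rw [mul_sum]
      apply sum_congr rfl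
      intro p hp
      have hp' : p.1 + p.2 = m := by simpa using hp
      rw [W_shift d1 0 L p.1, W_shift d2 0 L p.2]
      have h2 : Real.exp (m * L) = Real.exp (p.1 * (L - 0)) * Real.exp (p.2 * (L - 0)) := by
        rw [← Real.exp_add]
        congr 1
        rw [← hp']
        push_cast
        ring
      rw [h2]
      push_cast
      ring
    rw [h1, norm_mul]
    have h3 : ‖((Real.exp (m * L) : ℝ) : ℂ)‖ = Real.exp (m * L) := by
      rw [Complex.norm_real, Real.norm_of_nonneg (Real.exp_pos _).le]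
    rw [h3]
    have h4 := hconv m hm
    have hw1 := W_pos d1 0 (m + 1)
    have hw2 := W_pos d2 0 (m + 1)
    have ha1 := hα0 (m + 1)
    have hb1 := hβ0 (m + 1)
    have h5 : C * (α (m + 1) * W d1 0 (m + 1) + β (m + 1) * W d2 0 (m + 1))
        ≤ |C| * (α (m + 1) * W d1 0 (m + 1) + β (m + 1) * W d2 0 (m + 1)) := by
      apply mul_le_mul_of_nonneg_right (le_abs_self C)
      (clear * - ha1 hw1 hb1 hw2; positivity)
    have h6 : Real.exp (m * L) * (α (m + 1) * W d1 0 (m + 1) + β (m + 1) * W d2 0 (m + 1))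
        = Real.exp (-L) * (α (m + 1) * W d1 L (m + 1) + β (m + 1) * W d2 L (m + 1)) := by
      rw [W_shift d1 0 L (m + 1), W_shift d2 0 L (m + 1)]
      have : Real.exp (m * L) = Real.exp (-L) * Real.exp (((m + 1 : ℕ) : ℝ) * (L - 0)) := by
        rw [← Real.exp_add]
        congr 1
        push_cast
        ring
      rw [this]
      ring
    have h7 : α (m + 1) * W d1 L (m + 1) + β (m + 1) * W d2 L (m + 1) ≤ 2 * a := by
      have := hN1 (m + 1)
      have := hN2 (m + 1)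
      (clear x y hα0 hβ0 hx hy C hconv hap hα0' hβ0' hα1' hexp1 hea hC3 hm h1 h3 h4 hw1 hw2 ha1 hb1 h5 h6; linarith)
    calc Real.exp (m * L) * ‖∑ p ∈ antidiagonal m,
          (x p.1 * (W d1 0 p.1 : ℂ)) * (y p.2 * (W d2 0 p.2 : ℂ))‖
        ≤ Real.exp (m * L) * (|C| * (α (m + 1) * W d1 0 (m + 1) + β (m + 1) * W d2 0 (m + 1))) := by
          gcongr
          exact h4.trans h5
      _ = |C| * (Real.exp (m * L) * (α (m + 1) * W d1 0 (m + 1) + β (m + 1) * W d2 0 (m + 1))) := by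
          ring
      _ = |C| * (Real.exp (-L) * (α (m + 1) * W d1 L (m + 1) + β (m + 1) * W d2 L (m + 1))) := by
          rw [h6]
      _ ≤ |C| * (Real.exp (-L) * (2 * a)) := by (clear * - h7; gcongr)
      _ = 2 * |C| * (Real.exp (-L) * a) := by ring
      _ ≤ (2 * |C| + α 0 * β 0 * (Real.exp (d1 0) / α 1)) * (Real.exp (-L) * a) := by
          have : 0 ≤ α 0 * β 0 * (Real.exp (d1 0) / α 1) * (Real.exp (-L) * a) := by positivity
          nlinarith only [this]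

theorem record_lt {c : ℝ} (hc : 0 < c) {d1 d2 : ℕ → ℝ}
    (hg1 : ∀ n : ℕ, c * ((n : ℝ) + 1) ^ 2 ≤ d1 n) (hg2 : ∀ n : ℕ, c * ((n : ℝ) + 1) ^ 2 ≤ d2 n)
    {x y : ℕ → ℂ} {α β : ℕ → ℝ} (hα : Antitone α) (hβ : Antitone β)
    (hα0 : ∀ n, 0 < α n) (hβ0 : ∀ n, 0 < β n)
    (hx : ∀ n, ‖x n‖ ≤ α n) (hy : ∀ n, ‖y n‖ ≤ β n) (C : ℝ)
    (hconv : ∀ m : ℕ, 1 ≤ m →
      ‖∑ p ∈ antidiagonal m, (x p.1 * (W d1 0 p.1 : ℂ)) * (y p.2 * (W d2 0 p.2 : ℂ))‖
        ≤ C * (α (m + 1) * W d1 0 (m + 1) + β (m + 1) * W d2 0 (m + 1)))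
    {l : ℕ} (hl : y l ≠ 0) :
    ∃ L0 : ℝ, 0 < L0 ∧ ∀ L, L0 ≤ L → ∀ N1 N2, IsArg α d1 L N1 → IsArg β d2 L N2 →
      ‖x N1‖ = α N1 → α N1 * W d1 L N1 < β N2 * W d2 L N2 := by
  have hd1 : ∀ j, 0 ≤ d1 j := fun j => le_trans (by positivity) (hg1 j)
  have hd2 : ∀ j, 0 ≤ d2 j := fun j => le_trans (by positivity) (hg2 j)
  have hα0' := hα0 0
  have hβ0' := hβ0 0
  have hα1' := hα0 1
  obtain ⟨C3, hC3⟩ : ∃ C3 : ℝ, C3 = α 0 * β 0 * (Real.exp (d1 0) / α 1) := ⟨_, rfl⟩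
  have hC3p : 0 ≤ C3 := by rw [hC3]; positivity
  obtain ⟨C4, hC4⟩ : ∃ C4 : ℝ, C4 = 2 * |C| + C3 + (α 0 + β 0) := ⟨_, rfl⟩
  have hC4p : 0 ≤ C4 := by rw [hC4]; (clear * - hC3p hα0' hβ0'; positivity)
  obtain ⟨c0, hc0⟩ : ∃ c0 : ℝ, c0 = ‖y l‖ * W d2 0 l := ⟨_, rfl⟩
  have hc0p : 0 < c0 := by rw [hc0]; exact mul_pos (norm_pos_iff.2 hl) (W_pos _ _ _)
  obtain ⟨L0, hL0p, hL0⟩ := asymp hc hC4p hc0p l
  refine ⟨L0, hL0p, ?_⟩
  intro L hL N1 N2 hN1 hN2 hrec
  by_contra hcon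
  push Not at hcon
  have hLp : 0 < L := hL0p.trans_le hL
  obtain ⟨k0, hlk, hk0, hfin⟩ := hL0 L hL
  obtain ⟨K, hK⟩ : ∃ K, K = 2 * k0 := ⟨_, rfl⟩
  rw [← hK] at hlk hfin
  obtain ⟨a, ha⟩ : ∃ a, a = α N1 * W d1 L N1 := ⟨_, rfl⟩
  have hap : 0 < a := by rw [ha]; exact mul_pos (hα0 _) (W_pos _ _ _)
  have hgr1 : ∀ j, k0 ≤ j → 3 * L ≤ d1 j := fun j hj =>
    growth_ge hc hg1 (by positivity) (hk0.trans (by exact_mod_cast hj))
  have hgr2 : ∀ j, k0 ≤ j → 3 * L ≤ d2 j := fun j hj =>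
    growth_ge hc hg2 (by positivity) (hk0.trans (by exact_mod_cast hj))
  have ht1 : ∀ i, K < i → W d1 L i ≤ Real.exp (-(2 * L)) := fun i hi =>
    W_tail hLp.le hd1 hgr1 (by omega)
  have ht2 : ∀ i, K < i → W d2 L i ≤ Real.exp (-(2 * L)) := fun i hi =>
    W_tail hLp.le hd2 hgr2 (by omega)
  have he2 : Real.exp (-(2 * L)) ≤ Real.exp (-L) := Real.exp_le_exp.2 (by linarith only [hL0p, hL])
  have hA1 : ∀ i, α i * W d1 L i ≤ a := by rw [ha]; exact hN1
  have hA2 : ∀ i, β i * W d2 L i ≤ a := by rw [ha]; exact fun i => (hN2 i).trans hcon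
  have hn1 : ∀ i, ‖x i * (W d1 L i : ℂ)‖ = ‖x i‖ * W d1 L i := fun i => by
    rw [norm_mul, Complex.norm_real, Real.norm_of_nonneg (W_pos _ _ _).le]
  have hn2 : ∀ i, ‖y i * (W d2 L i : ℂ)‖ = ‖y i‖ * W d2 L i := fun i => by
    rw [norm_mul, Complex.norm_real, Real.norm_of_nonneg (W_pos _ _ _).le]
  have hxa : ∀ i, ‖x i‖ * W d1 L i ≤ a := fun i =>
    (mul_le_mul_of_nonneg_right (hx i) (W_pos _ _ _).le).trans (hA1 i)
  have hyb : ∀ i, ‖y i‖ * W d2 L i ≤ a := fun i =>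
    (mul_le_mul_of_nonneg_right (hy i) (W_pos _ _ _).le).trans (hA2 i)
  have hx0 : ∀ i, 0 ≤ ‖x i‖ * W d1 L i := fun i => by
    have := W_pos d1 L i
    (clear * - this; positivity)
  have hy0 : ∀ i, 0 ≤ ‖y i‖ * W d2 L i := fun i => by
    have := W_pos d2 L i
    (clear * - this; positivity)
  have hN1K : N1 ≤ K := by
    by_contra hlt
    push Not at hlt
    have h1 : a ≤ α 0 * Real.exp (-(2 * L)) := by
      rw [ha]
      exact mul_le_mul (hα (Nat.zero_le _)) (ht1 N1 hlt) (W_pos _ _ _).le (hα0 _).le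
    have h2 : α 0 ≤ a := by
      have := hA1 0
      rwa [W_zero, mul_one] at this
    have h3 : Real.exp (-(2 * L)) < 1 := by
      rw [Real.exp_lt_one_iff]; linarith only [hL0p, hL]
    nlinarith only [h1, h2, hα0', h3]
  have hfull := conv_bound hα0 hβ0 hx hy C hconv hap hA1 hA2
  rw [← hC3] at hfull
  have hE0 : 0 ≤ (α 0 + β 0) * (Real.exp (-L) * a) := by (clear * - hα0' hβ0' hap; positivity)
  have htx : ∀ i, K < i → ‖x i‖ * W d1 L i ≤ α 0 * Real.exp (-L) := fun i hi =>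
    mul_le_mul ((hx _).trans (hα (Nat.zero_le _))) ((ht1 _ hi).trans he2)
      (W_pos _ _ _).le (hα0 0).le
  have hty : ∀ i, K < i → ‖y i‖ * W d2 L i ≤ β 0 * Real.exp (-L) := fun i hi =>
    mul_le_mul ((hy _).trans (hβ (Nat.zero_le _))) ((ht2 _ hi).trans he2)
      (W_pos _ _ _).le (hβ0 0).le
  have hel : 0 < Real.exp (-L) := Real.exp_pos _
  have hf : ∀ i j, K < i → ‖x i * (W d1 L i : ℂ)‖ * ‖y j * (W d2 L j : ℂ)‖
      ≤ (α 0 + β 0) * (Real.exp (-L) * a) := by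
    intro i j hi
    rw [hn1, hn2]
    have h1 : ‖x i‖ * W d1 L i * (‖y j‖ * W d2 L j) ≤ (α 0 * Real.exp (-L)) * a :=
      mul_le_mul (htx i hi) (hyb j) (hy0 j) (by positivity)
    have h2 : 0 ≤ β 0 * (Real.exp (-L) * a) := by positivity
    have h3 : (α 0 + β 0) * (Real.exp (-L) * a)
      = (α 0 * Real.exp (-L)) * a + β 0 * (Real.exp (-L) * a) := by ring
    linarith only [h1, h2]
  have hg : ∀ i j, K < j → ‖x i * (W d1 L i : ℂ)‖ * ‖y j * (W d2 L j : ℂ)‖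
      ≤ (α 0 + β 0) * (Real.exp (-L) * a) := by
    intro i j hj
    rw [hn1, hn2]
    have h1 : ‖x i‖ * W d1 L i * (‖y j‖ * W d2 L j) ≤ a * (β 0 * Real.exp (-L)) :=
      mul_le_mul (hxa i) (hty j hj) (hy0 j) hap.le
    have h2 : 0 ≤ α 0 * (Real.exp (-L) * a) := by positivity
    have h3 : (α 0 + β 0) * (Real.exp (-L) * a)
      = a * (β 0 * Real.exp (-L)) + α 0 * (Real.exp (-L) * a) := by ring
    linarith only [h1, h2]
  have hPQ := trunc_mul_bound K (fun n => x n * (W d1 L n : ℂ)) (fun n => y n * (W d2 L n : ℂ))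
    ((2 * |C| + C3) * (Real.exp (-L) * a)) ((α 0 + β 0) * (Real.exp (-L) * a))
    (by (clear * - hC3p hap; positivity)) hE0 hfull hf hg
  have hmain := poly_mul_coeff_lower K _ _ (Trunc_natDegree K _) (Trunc_natDegree K _) _ hPQ N1 l
  rw [Trunc_coeff, Trunc_coeff, if_pos hN1K, if_pos hlk, hn1, hn2, hrec, ← ha] at hmain
  have h1 : W d2 0 l ≤ W d2 L l := by
    rw [W_shift d2 0 L l]
    have : 1 ≤ Real.exp (l * (L - 0)) := Real.one_le_exp (by
      have : (0 : ℝ) ≤ l := Nat.cast_nonneg _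
      nlinarith only [hL0p, hL])
    nlinarith only [this, W_pos d2 0 l]
  have h2 : a * c0 ≤ a * (‖y l‖ * W d2 L l) := by
    rw [hc0]
    have := norm_nonneg (y l)
    (clear * - h1 hl hap; gcongr)
  have h2' := h2.trans hmain
  have h3 : 4 ^ K * (2 * (K : ℝ) + 1) * ((2 * (K : ℝ) + 1) *
      ((2 * |C| + C3) * (Real.exp (-L) * a) + (α 0 + β 0) * (Real.exp (-L) * a)))
      = a * (4 ^ K * (2 * (K : ℝ) + 1) * ((2 * (K : ℝ) + 1) * C4 * Real.exp (-L))) := by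
    rw [hC4]; ring
  rw [h3] at h2'
  have h4 := le_of_mul_le_mul_left h2' hap
  exact absurd hfin (not_lt.2 h4)

/-- moving a nonrecord argmax to the next record -/
theorem next_record {d : ℕ → ℝ} (hd : Monotone d) {x : ℕ → ℂ} {α : ℕ → ℝ} (hα : Antitone α)
    (hα0 : ∀ n, 0 < α n) (hx : ∀ n, ‖x n‖ ≤ α n) (hrx : ∀ n, ∃ N, n ≤ N ∧ ‖x N‖ = α n)
    {L : ℝ} {N : ℕ} (hN : IsArg α d L N) (hnot : ‖x N‖ ≠ α N) :
    ∃ M, N ≤ M ∧ ‖x (M + 1)‖ = α (M + 1) ∧ α (M + 1) = α N ∧ L ≤ d M ∧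
      IsArg α d (d M) (M + 1) := by
  obtain ⟨N', hNN', hN'⟩ := hrx N
  have hne : N ≠ N' := by
    rintro rfl
    exact hnot hN'
  obtain ⟨M, rfl⟩ : ∃ M, N' = M + 1 := ⟨N' - 1, by omega⟩
  have hNM : N ≤ M := by omega
  have heq : α (M + 1) = α N := le_antisymm (hα hNN') (hN' ▸ hx (M + 1))
  have heqi : ∀ i, N ≤ i → i ≤ M + 1 → α i = α N := fun i h1 h2 =>
    le_antisymm (hα h1) (heq ▸ hα h2)
  have hLd : L ≤ d N := by
    have h1 := hN (N + 1)
    rw [heqi (N + 1) (by omega) (by omega), W_succ] at h1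
    by_contra hlt
    push Not at hlt
    have h2 : 1 < Real.exp (L - d N) := Real.one_lt_exp_iff.2 (by linarith only [hlt])
    have h3 : 0 < α N * W d L N := mul_pos (hα0 _) (W_pos _ _ _)
    nlinarith only [h1, h2, h3]
  refine ⟨M, hNM, by rw [hN', heq], heq, hLd.trans (hd hNM), ?_⟩
  have hLM : L ≤ d M := hLd.trans (hd hNM)
  intro k
  rcases le_or_gt (M + 1) k with hk | hk
  · have h1 : W d (d M) k ≤ W d (d M) (M + 1) :=
      W_ge_of_le hk (fun j hj _ => hd (by omega))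
    exact mul_le_mul (hα hk) h1 (W_pos _ _ _).le (hα0 _).le
  · rcases le_or_gt N k with hk2 | hk2
    · have h1 : W d (d M) k ≤ W d (d M) (M + 1) :=
        W_le_of_le hk.le (fun j _ hj => hd (by omega))
      rw [heqi k hk2 hk.le, heq]
      exact mul_le_mul_of_nonneg_left h1 (hα0 _).le
    · have h1 : α k * W d (d M) k ≤ α N * W d (d M) N := by
        rw [W_shift d L (d M) k, W_shift d L (d M) N]
        have h2 := hN k
        have h3 : Real.exp (k * (d M - L)) ≤ Real.exp (N * (d M - L)) := by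
          apply Real.exp_le_exp.2
          have : (k : ℝ) ≤ N := by exact_mod_cast hk2.le
          nlinarith only [hLM, this]
        calc α k * (W d L k * Real.exp (k * (d M - L)))
            = (α k * W d L k) * Real.exp (k * (d M - L)) := by ring
          _ ≤ (α N * W d L N) * Real.exp (N * (d M - L)) :=
              mul_le_mul h2 h3 (Real.exp_pos _).le (mul_pos (hα0 _) (W_pos _ _ _)).le
          _ = α N * (W d L N * Real.exp (N * (d M - L))) := by ring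
      have h4 : W d (d M) N ≤ W d (d M) (M + 1) :=
        W_le_of_le (by omega) (fun j _ hj => hd (by omega))
      rw [heq]
      exact h1.trans (mul_le_mul_of_nonneg_left h4 (hα0 _).le)

theorem W_ratio_le {d d' : ℕ → ℝ} (hdd : ∀ n, d n ≤ d' n) (L : ℝ) {N k : ℕ} (hNk : N ≤ k) :
    W d' L k * W d L N ≤ W d' L N * W d L k := by
  induction k, hNk using Nat.le_induction with
  | base => exact le_rfl
  | succ k hk ih =>
    rw [W_succ, W_succ]
    have h1 : Real.exp (L - d' k) ≤ Real.exp (L - d k) :=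
      Real.exp_le_exp.2 (by linarith [hdd k])
    calc W d' L k * Real.exp (L - d' k) * W d L N
        = (W d' L k * W d L N) * Real.exp (L - d' k) := by ring
      _ ≤ (W d' L N * W d L k) * Real.exp (L - d k) :=
          mul_le_mul ih h1 (Real.exp_pos _).le (mul_pos (W_pos _ _ _) (W_pos _ _ _)).le
      _ = W d' L N * (W d L k * Real.exp (L - d k)) := by ring

theorem core_false {c : ℝ} (hc : 0 < c) {d d' : ℕ → ℝ} (hd : Monotone d) (hd' : Monotone d')
    (hdd : ∀ n, d n ≤ d' n) (hg : ∀ n : ℕ, c * ((n : ℝ) + 1) ^ 2 ≤ d n)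
    {x y : ℕ → ℂ} {α β : ℕ → ℝ} (hα : Antitone α) (hβ : Antitone β)
    (hα0 : ∀ n, 0 < α n) (hβ0 : ∀ n, 0 < β n)
    (hx : ∀ n, ‖x n‖ ≤ α n) (hy : ∀ n, ‖y n‖ ≤ β n)
    (hrx : ∀ n, ∃ N, n ≤ N ∧ ‖x N‖ = α n) (hry : ∀ n, ∃ N, n ≤ N ∧ ‖y N‖ = β n)
    (C : ℝ)
    (hconv : ∀ m : ℕ, 1 ≤ m →
      ‖∑ p ∈ antidiagonal m, (x p.1 * (W d' 0 p.1 : ℂ)) * (y p.2 * (W d 0 p.2 : ℂ))‖
        ≤ C * (α (m + 1) * W d' 0 (m + 1) + β (m + 1) * W d 0 (m + 1))) : False := by
  have hg' : ∀ n : ℕ, c * ((n : ℝ) + 1) ^ 2 ≤ d' n := fun n => (hg n).trans (hdd n)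
  obtain ⟨l1, _, hl1⟩ := hry 0
  obtain ⟨l2, _, hl2⟩ := hrx 0
  have hl1' : y l1 ≠ 0 := by
    rw [← norm_pos_iff, hl1]; exact hβ0 0
  have hl2' : x l2 ≠ 0 := by
    rw [← norm_pos_iff, hl2]; exact hα0 0
  have hconv' : ∀ m : ℕ, 1 ≤ m →
      ‖∑ p ∈ antidiagonal m, (y p.1 * (W d 0 p.1 : ℂ)) * (x p.2 * (W d' 0 p.2 : ℂ))‖
        ≤ C * (β (m + 1) * W d 0 (m + 1) + α (m + 1) * W d' 0 (m + 1)) := by
    intro m hm
    have h1 := hconv m hm
    rw [add_comm (β (m + 1) * W d 0 (m + 1))]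
    refine le_of_eq_of_le ?_ h1
    congr 1
    rw [← Finset.Nat.sum_antidiagonal_swap]
    apply sum_congr rfl
    intro p _
    simp only [Prod.fst_swap, Prod.snd_swap]
    ring
  obtain ⟨La, hLa0, hLa⟩ := record_lt hc hg' hg hα hβ hα0 hβ0 hx hy C hconv hl1'
  obtain ⟨Lb, hLb0, hLb⟩ := record_lt hc hg hg' hβ hα hβ0 hα0 hy hx C hconv' hl2'
  -- Step R
  obtain ⟨L1, N1, hL1, hN1, hrec1⟩ : ∃ L1 N1, max La Lb ≤ L1 ∧ IsArg α d' L1 N1 ∧
      ‖x N1‖ = α N1 := by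
    obtain ⟨N, hN⟩ := exists_arg hc hg' hα hα0 (L := max La Lb)
      (le_max_of_le_left hLa0.le)
    by_cases h : ‖x N‖ = α N
    · exact ⟨_, N, le_rfl, hN, h⟩
    · obtain ⟨M, _, h2, _, h4, h5⟩ := next_record hd' hα hα0 hx hrx hN h
      exact ⟨_, M + 1, h4, h5, h2⟩
  have hL1a : La ≤ L1 := (le_max_left _ _).trans hL1
  have hL1b : Lb ≤ L1 := (le_max_right _ _).trans hL1
  have hL1p : 0 ≤ L1 := hLa0.le.trans hL1a
  obtain ⟨N, hN⟩ := exists_arg hc hg hβ hβ0 hL1p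
  have hlt := hLa L1 hL1a N1 N hN1 hN hrec1
  have hnot : ‖y N‖ ≠ β N := by
    intro h
    exact absurd (hLb L1 hL1b N N1 hN hN1 h) (not_lt.2 hlt.le)
  obtain ⟨M, hNM, hrecM, hβM, hL2, hargM⟩ := next_record hd hβ hβ0 hy hry hN hnot
  obtain ⟨L2, hL2eq⟩ : ∃ L2, L2 = d M := ⟨_, rfl⟩
  rw [← hL2eq] at hL2 hargM
  obtain ⟨k, hk⟩ := exists_arg hc hg' hα hα0 (L := L2) (hL1p.trans hL2)
  have hfin := hLb L2 (hL1b.trans hL2) (M + 1) k hargM hk hrecM
  -- comparison at N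
  have hWN : W d L2 N ≤ W d L2 (M + 1) :=
    W_le_of_le (by omega) (fun j _ hj => by rw [hL2eq]; exact hd (by omega))
  have hcmp : ∀ i, i ≤ N → α i * W d' L2 i ≤ β N * W d L2 N := by
    intro i hi
    have h1 : α i * W d' L1 i ≤ β N * W d L1 N := (hN1 i).trans hlt.le
    rw [W_shift d' L1 L2 i, W_shift d L1 L2 N]
    have h3 : Real.exp (i * (L2 - L1)) ≤ Real.exp (N * (L2 - L1)) := by
      apply Real.exp_le_exp.2
      have : (i : ℝ) ≤ N := by exact_mod_cast hi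
      nlinarith only [hL2, this]
    calc α i * (W d' L1 i * Real.exp (i * (L2 - L1)))
        = (α i * W d' L1 i) * Real.exp (i * (L2 - L1)) := by ring
      _ ≤ (β N * W d L1 N) * Real.exp (N * (L2 - L1)) :=
          mul_le_mul h1 h3 (Real.exp_pos _).le (mul_pos (hβ0 _) (W_pos _ _ _)).le
      _ = β N * (W d L1 N * Real.exp (N * (L2 - L1))) := by ring
  rcases le_or_gt k N with hkN | hkN
  · have h1 := hcmp k hkN
    have h2 : β N * W d L2 N ≤ β N * W d L2 (M + 1) := mul_le_mul_of_nonneg_left hWN (hβ0 _).le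
    rw [← hβM] at h2
    rw [← hβM] at h1
    linarith only [hfin, h1, h2]
  · have h1 := hcmp N le_rfl
    have h2 := W_ratio_le hdd L2 hkN.le
    have h3 : W d L2 k ≤ W d L2 (M + 1) := by
      rcases le_or_gt k (M + 1) with hkM | hkM
      · exact W_le_of_le hkM (fun j _ hj => by rw [hL2eq]; exact hd (by omega))
      · exact W_ge_of_le hkM.le (fun j hj _ => by rw [hL2eq]; exact hd (by omega))
    have hWNp := W_pos d L2 N
    have h4 : α k * W d' L2 k * W d L2 N ≤ β N * W d L2 (M + 1) * W d L2 N := by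
      calc α k * W d' L2 k * W d L2 N = α k * (W d' L2 k * W d L2 N) := by ring
        _ ≤ α N * (W d' L2 N * W d L2 k) :=
            mul_le_mul (hα hkN.le) h2 (mul_pos (W_pos _ _ _) (W_pos _ _ _)).le (hα0 _).le
        _ = (α N * W d' L2 N) * W d L2 k := by ring
        _ ≤ (β N * W d L2 N) * W d L2 (M + 1) :=
            mul_le_mul h1 h3 (W_pos _ _ _).le (mul_pos (hβ0 _) (W_pos _ _ _)).le
        _ = β N * W d L2 (M + 1) * W d L2 N := by ring
    have h5 := le_of_mul_le_mul_right h4 hWNp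
    rw [← hβM] at h5
    linarith only [hfin, h5]

end Vale.Agent.P131
end
end

section

section

namespace Vale.Agent.P131.Uni

open MeasureTheory Finset

/-! Basic facts on the potential `hh` and on sequences. -/

theorem hh_natCast (d d' : ℕ → ℝ) (n : ℕ) : hh d d' (n : ℤ) = -∑ j ∈ range n, d j := by
  unfold hh
  have h1 : (-(n : ℤ)).toNat = 0 := by omega
  have h2 : ((n : ℤ)).toNat = n := by omega
  rw [h1, h2]; simp

theorem hh_neg_natCast (d d' : ℕ → ℝ) (n : ℕ) : hh d d' (-(n : ℤ)) = ∑ j ∈ range n, d' j := by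
  unfold hh
  have h1 : (-(-(n : ℤ))).toNat = n := by omega
  have h2 : (-(n : ℤ)).toNat = 0 := by omega
  rw [h1, h2]; simp

theorem hh_swap (d d' : ℕ → ℝ) (z : ℤ) : hh d' d z = - hh d d' (-z) := by
  unfold hh
  rw [neg_neg]; ring

theorem hh_antitone {d d' : ℕ → ℝ} (hd : ∀ n, 0 ≤ d n) (hd' : ∀ n, 0 ≤ d' n) :
    Antitone (hh d d') := by
  intro a b hab
  unfold hh
  have h1 : ∑ j ∈ range (-b).toNat, d' j ≤ ∑ j ∈ range (-a).toNat, d' j := by
    apply Finset.sum_le_sum_of_subset_of_nonneg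
    · intro i hi
      simp only [Finset.mem_range] at hi ⊢
      omega
    · intro i _ _; exact hd' i
  have h2 : ∑ j ∈ range a.toNat, d j ≤ ∑ j ∈ range b.toNat, d j := by
    apply Finset.sum_le_sum_of_subset_of_nonneg
    · intro i hi
      simp only [Finset.mem_range] at hi ⊢
      omega
    · intro i _ _; exact hd i
  linarith

theorem hh_sub_nat (d d' : ℕ → ℝ) (k m : ℕ) :
    hh d d' ((k : ℤ) + m) - hh d d' k = -∑ i ∈ range m, d (k + i) := by
  have h1 : ((k : ℤ) + m) = ((k + m : ℕ) : ℤ) := by push_cast; ring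
  rw [h1, hh_natCast, hh_natCast, Finset.sum_range_add]
  ring

/-- Sums of `m` consecutive increments starting at `k` dominate those starting at `l ≤ k`. -/
theorem hh_gap {d d' : ℕ → ℝ} (hdm : Monotone d) (hd : ∀ n, 0 ≤ d n) (hd' : ∀ n, 0 ≤ d' n)
    {l k : ℤ} (hlk : l ≤ k) (m : ℕ) :
    hh d d' (k + m) - hh d d' k ≤ hh d d' (l + m) - hh d d' l + max (hh d d' l) 0 := by
  have hanti := hh_antitone hd hd'
  have h0 : hh d d' 0 = 0 := by
    have := hh_natCast d d' 0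
    simpa using this
  -- comparison for nonnegative indices
  have hpos : ∀ a b : ℕ, a ≤ b →
      hh d d' ((b : ℤ) + m) - hh d d' b ≤ hh d d' ((a : ℤ) + m) - hh d d' a := by
    intro a b hab
    rw [hh_sub_nat, hh_sub_nat]
    apply neg_le_neg
    apply Finset.sum_le_sum
    intro i _
    exact hdm (by omega)
  rcases le_total 0 l with hl | hl
  · obtain ⟨a, rfl⟩ := Int.eq_ofNat_of_zero_le hl
    obtain ⟨b, rfl⟩ := Int.eq_ofNat_of_zero_le (hl.trans hlk)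
    have h1 := hpos a b (by omega)
    have h2 : (0 : ℝ) ≤ max (hh d d' a) 0 := le_max_right _ _
    linarith
  · have h2 : hh d d' l ≤ max (hh d d' l) 0 := le_max_left _ _
    rcases le_total 0 k with hk | hk
    · obtain ⟨b, rfl⟩ := Int.eq_ofNat_of_zero_le hk
      have h1 := hpos 0 b (by omega)
      have h3 : hh d d' ((m : ℤ)) ≤ hh d d' (l + m) := hanti (by omega)
      simp only [Nat.cast_zero, zero_add, h0, sub_zero] at h1
      linarith
    · have h3 : hh d d' (k + m) ≤ hh d d' (l + m) := hanti (by omega)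
      have h4 : hh d d' 0 ≤ hh d d' k := hanti hk
      rw [h0] at h4
      linarith

/-- `exp (- d n)` is summable under quadratic growth. -/
theorem summable_exp_neg {c : ℝ} (hc : 0 < c) {d : ℕ → ℝ}
    (hg : ∀ n : ℕ, c * ((n : ℝ) + 1) ^ 2 ≤ d n) :
    Summable fun n => Real.exp (-(d n)) := by
  have h1 : Summable fun n : ℕ => c⁻¹ * (1 / ((n + 1 : ℕ) : ℝ) ^ 2) := by
    apply Summable.mul_left
    exact (summable_nat_add_iff (f := fun n : ℕ => 1 / (n : ℝ) ^ 2) 1).2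
      (Real.summable_one_div_nat_pow.2 (by norm_num))
  refine Summable.of_nonneg_of_le (fun n => (Real.exp_pos _).le) (fun n => ?_) h1
  have hpos : 0 < c * ((n : ℝ) + 1) ^ 2 := by positivity
  have h2 : Real.exp (-(d n)) ≤ Real.exp (-(c * ((n : ℝ) + 1) ^ 2)) :=
    Real.exp_le_exp.2 (neg_le_neg (hg n))
  have h3 : Real.exp (-(c * ((n : ℝ) + 1) ^ 2)) ≤ (c * ((n : ℝ) + 1) ^ 2)⁻¹ := by
    rw [Real.exp_neg]
    apply inv_anti₀ hpos
    linarith [Real.add_one_le_exp (c * ((n : ℝ) + 1) ^ 2)]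
  refine (h2.trans h3).trans (le_of_eq ?_)
  push_cast
  rw [mul_inv]; ring

/-- A null sequence which is nonzero somewhere beyond `n` attains its tail supremum. -/
theorem exists_record {x : ℕ → ℂ} (hx : Filter.Tendsto (fun n => ‖x n‖) Filter.atTop (nhds 0))
    (n : ℕ) (hne : ∃ i, n ≤ i ∧ x i ≠ 0) :
    ∃ N, n ≤ N ∧ x N ≠ 0 ∧ ∀ i, n ≤ i → ‖x i‖ ≤ ‖x N‖ := by
  obtain ⟨i, hi, hxi⟩ := hne
  have hpos : 0 < ‖x i‖ := norm_pos_iff.2 hxi
  obtain ⟨M, hM⟩ := Filter.eventually_atTop.1 (hx.eventually (gt_mem_nhds hpos))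
  obtain ⟨N, hN, hmax⟩ := Finset.exists_max_image (Finset.Icc n (max i M)) (fun j => ‖x j‖)
    ⟨i, by simp only [mem_Icc, hi, le_sup_left, and_self]⟩
  rw [Finset.mem_Icc] at hN
  have hiN : ‖x i‖ ≤ ‖x N‖ := hmax i (by simp only [mem_Icc, hi, le_sup_left, and_self])
  refine ⟨N, hN.1, ?_, ?_⟩
  · rw [← norm_pos_iff]; exact hpos.trans_le hiN
  · intro j hj
    rcases le_total j (max i M) with h | h
    · exact hmax j (by simp only [mem_Icc, hj, h, and_self])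
    · exact ((hM j (le_trans (le_max_right _ _) h)).le).trans hiN

/-- abstract form of part (b) -/
theorem core_b {U V : ℕ → ℂ} {B : ℝ} (hU : ∀ n, ‖U n‖ ≤ B)
    (hV : Filter.Tendsto (fun n => ‖V n‖) Filter.atTop (nhds 0)) (hU0 : U 0 ≠ 0)
    {a : ℕ → ℕ → ℝ} (ha : ∀ n m, 0 < a n m) {ε : ℕ → ℝ} (hε : Summable ε)
    (m₀ : ℕ) (hle : ∀ n m, 1 ≤ n → m₀ ≤ m → a n m ≤ ε (n + m) * a 0 m)
    (hrel : ∀ m, ∑' n : ℕ, (a n m : ℂ) * (U n * V (n + m)) = 0) : ∀ m, V m = 0 := by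
  have hUpos : 0 < ‖U 0‖ := norm_pos_iff.2 hU0
  have hB : 0 < B := hUpos.trans_le (hU 0)
  -- eventually zero
  have hev : ∃ M, ∀ m, M ≤ m → V m = 0 := by
    by_contra hcon
    push Not at hcon
    have htail : Filter.Tendsto (fun m => ∑' n, ε (n + m)) Filter.atTop (nhds 0) :=
      tendsto_sum_nat_add ε
    have hpos : 0 < ‖U 0‖ / (B + 1) := by positivity
    obtain ⟨M, hM⟩ := Filter.eventually_atTop.1 (htail.eventually (gt_mem_nhds hpos))
    obtain ⟨N, hN, hVN, hmax⟩ := exists_record hV (max M m₀) (hcon _)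
    have hNM : M ≤ N := (le_max_left _ _).trans hN
    have hNm : m₀ ≤ N := (le_max_right _ _).trans hN
    have hVpos : 0 < ‖V N‖ := norm_pos_iff.2 hVN
    have hεnn : ∀ n, 0 ≤ ε (n + 1 + N) := by
      intro n
      have h1 := hle (n + 1) N (by omega) hNm
      have h2 : 0 < ε (n + 1 + N) * a 0 N := (ha _ _).trans_le h1
      exact (pos_of_mul_pos_left h2 (ha 0 N).le).le
    set f : ℕ → ℂ := fun n => (a n N : ℂ) * (U n * V (n + N)) with hf
    have hbound : ∀ n, ‖f (n + 1)‖ ≤ (B * ‖V N‖ * a 0 N) * ε (n + 1 + N) := by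
      intro n
      simp only [hf, norm_mul, Complex.norm_real, Real.norm_eq_abs, abs_of_pos (ha _ _)]
      have h1 := hle (n + 1) N (by omega) hNm
      have h2 := hU (n + 1)
      have h3 := hmax (n + 1 + N) (by omega)
      calc a (n + 1) N * (‖U (n + 1)‖ * ‖V (n + 1 + N)‖)
          ≤ (ε (n + 1 + N) * a 0 N) * (B * ‖V N‖) := by
            apply mul_le_mul h1 (mul_le_mul h2 h3 (norm_nonneg _) hB.le) (by (clear * -; positivity))
            exact mul_nonneg (hεnn n) (ha 0 N).le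
        _ = _ := by ring
    have hεs : Summable fun n => ε (n + 1 + N) := by
      have := (summable_nat_add_iff (f := ε) (1 + N)).2 hε
      refine this.congr (fun n => ?_)
      rw [add_assoc]
    have hfs1 : Summable fun n => f (n + 1) :=
      Summable.of_norm_bounded (hεs.mul_left _) hbound
    have hfs : Summable f := (summable_nat_add_iff 1).1 hfs1
    have hsum : f 0 + ∑' n, f (n + 1) = 0 := by
      rw [← hfs.tsum_eq_zero_add]; exact hrel N
    have hn0 : ‖f 0‖ = ‖∑' n, f (n + 1)‖ := by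
      rw [eq_neg_of_add_eq_zero_left hsum, norm_neg]
    have hle2 : ‖∑' n, f (n + 1)‖ ≤ (B * ‖V N‖ * a 0 N) * ∑' n, ε (n + 1 + N) := by
      rw [← tsum_mul_left]
      exact tsum_of_norm_bounded (hεs.mul_left _).hasSum hbound
    have hf0 : ‖f 0‖ = a 0 N * (‖U 0‖ * ‖V N‖) := by
      simp only [hf, norm_mul, Complex.norm_real, Real.norm_eq_abs, abs_of_pos (ha _ _), zero_add]
    have hsumlt : ∑' n, ε (n + 1 + N) < ‖U 0‖ / (B + 1) := by
      have := hM (N + 1) (by omega)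
      refine lt_of_eq_of_lt ?_ this
      apply tsum_congr; intro n; congr 1; omega
    have h4 : a 0 N * (‖U 0‖ * ‖V N‖) ≤ (B * ‖V N‖ * a 0 N) * (‖U 0‖ / (B + 1)) := by
      rw [← hf0, hn0]
      refine hle2.trans ?_
      apply mul_le_mul_of_nonneg_left hsumlt.le
      have := (ha 0 N).le
      (clear * - hB hVN this; positivity)
    have h5 : ‖U 0‖ ≤ B * (‖U 0‖ / (B + 1)) := by
      have h6 : 0 < a 0 N * ‖V N‖ := mul_pos (ha 0 N) hVpos
      have h7 : (a 0 N * ‖V N‖) * ‖U 0‖ ≤ (a 0 N * ‖V N‖) * (B * (‖U 0‖ / (B + 1))) := by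
        linarith only [h4]
      exact le_of_mul_le_mul_left h7 h6
    have h8 : B * (‖U 0‖ / (B + 1)) < ‖U 0‖ := by
      rw [mul_div_assoc', div_lt_iff₀ (by linarith only [hB])]
      nlinarith only [hUpos]
    linarith only [h5, h8]
  obtain ⟨M, hM⟩ := hev
  by_contra hcon
  push Not at hcon
  obtain ⟨m₁, hm₁⟩ := hcon
  obtain ⟨N, hN, hVN, hmaxN⟩ : ∃ N, m₁ ≤ N ∧ V N ≠ 0 ∧ ∀ j, N < j → V j = 0 := by
    classical
    obtain ⟨N, hN, hmax⟩ := Finset.exists_max_image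
      ((Finset.range (M + m₁ + 1)).filter (fun j => V j ≠ 0)) (fun j => j)
      ⟨m₁, by simp only [ne_eq, mem_filter, mem_range, Order.lt_add_one_iff, le_add_iff_nonneg_left, zero_le, hm₁, not_false_eq_true, and_self]⟩
    simp only [Finset.mem_filter, Finset.mem_range] at hN hmax
    refine ⟨N, hmax m₁ ⟨by omega, hm₁⟩, hN.2, ?_⟩
    intro j hj
    by_contra hne
    rcases lt_or_ge j (M + m₁ + 1) with h | h
    · have := hmax j ⟨h, hne⟩; omega
    · exact hne (hM j (by omega))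
  have h1 := hrel N
  rw [tsum_eq_single 0] at h1
  · simp only [zero_add, mul_eq_zero, Complex.ofReal_eq_zero] at h1
    rcases h1 with h | h | h
    · exact (ha 0 N).ne' h
    · exact hU0 h
    · exact hVN h
  · intro n hn
    rw [hmaxN (n + N) (by omega)]
    ring

end Vale.Agent.P131.Uni
end
end

section

section

namespace Vale.Agent.P131.Uni

open MeasureTheory Finset

theorem hh_succ_of_nonneg (d d' : ℕ → ℝ) {z : ℤ} (hz : 0 ≤ z) :
    hh d d' (z + 1) = hh d d' z - d z.toNat := by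
  obtain ⟨a, rfl⟩ := Int.eq_ofNat_of_zero_le hz
  have h1 : ((a : ℤ) + 1) = ((a + 1 : ℕ) : ℤ) := by push_cast; ring
  rw [h1, hh_natCast, hh_natCast, Finset.sum_range_succ]
  simp only [Int.toNat_natCast]
  ring

theorem bounded_of_summable_sq {u : ℤ → ℂ} (hu : Summable fun k => ‖u k‖ ^ 2) :
    ∃ B : ℝ, ∀ k, ‖u k‖ ≤ B := by
  refine ⟨Real.sqrt (∑' k, ‖u k‖ ^ 2), fun k => ?_⟩
  apply Real.le_sqrt_of_sq_le
  exact hu.le_tsum k (fun _ _ => by positivity)

theorem tendsto_norm_of_summable_sq {x : ℕ → ℂ} (hx : Summable fun n => ‖x n‖ ^ 2) :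
    Filter.Tendsto (fun n => ‖x n‖) Filter.atTop (nhds 0) := by
  have h1 := hx.tendsto_atTop_zero
  have h2 := (Real.continuous_sqrt.tendsto 0).comp h1
  rw [Real.sqrt_zero] at h2
  refine h2.congr (fun n => ?_)
  simp only [Function.comp]
  exact Real.sqrt_sq (norm_nonneg _)

/-- part (b): a first nonzero entry of `u` forces `v` to vanish to the right of it. -/
theorem part_b {c : ℝ} (hc : 0 < c) {d d' : ℕ → ℝ} (hdm : Monotone d)
    (hd : ∀ n, 0 ≤ d n) (hd' : ∀ n, 0 ≤ d' n) (hg : ∀ n : ℕ, c * ((n : ℝ) + 1) ^ 2 ≤ d n)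
    {u v : ℤ → ℂ} (hu : Summable fun k => ‖u k‖ ^ 2) (hv : Summable fun k => ‖v k‖ ^ 2)
    (horth : ∀ m : ℕ, ∑' k : ℤ,
      (Real.exp (hh d d' (k + m) - hh d d' k) : ℂ) * (u k * v (k + m)) = 0)
    {i₀ : ℤ} (hi₀ : u i₀ ≠ 0) (hlow : ∀ k, k < i₀ → u k = 0) :
    ∀ j, i₀ ≤ j → v j = 0 := by
  obtain ⟨B, hB⟩ := bounded_of_summable_sq hu
  have hinj : Function.Injective (fun n : ℕ => i₀ + (n : ℤ)) := by
    intro a b hab
    simp only [add_right_inj, Nat.cast_inj] at hab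
    exact hab
  set K : ℝ := Real.exp (max (hh d d' (i₀ + 1)) 0) * Real.exp (hh d d' i₀ - hh d d' (i₀ + 1))
    with hK
  have hKpos : 0 < K := by positivity
  have hεs : Summable fun N : ℕ => K * Real.exp (-(d (i₀ + N - 1).toNat)) := by
    apply Summable.mul_left
    refine (summable_nat_add_iff (1 - i₀).toNat).1 ?_
    have hinj2 : Function.Injective
        (fun N : ℕ => (i₀ + ((N + (1 - i₀).toNat : ℕ) : ℤ) - 1).toNat) := by
      intro a b hab
      simp only at hab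
      push_cast at hab
      omega
    exact (summable_exp_neg hc hg).comp_injective hinj2
  have hmain := core_b (U := fun n => u (i₀ + n)) (V := fun n => v (i₀ + n)) (B := B)
    (fun n => hB _) (tendsto_norm_of_summable_sq (hv.comp_injective hinj)) (by simpa using hi₀)
    (a := fun n m => Real.exp (hh d d' (i₀ + n + m) - hh d d' (i₀ + n)))
    (fun n m => Real.exp_pos _) hεs ((-i₀).toNat + 1) ?_ ?_
  · intro j hj
    obtain ⟨n, hn⟩ := Int.eq_ofNat_of_zero_le (sub_nonneg.2 hj)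
    have := hmain n
    have h2 : i₀ + (n : ℤ) = j := by omega
    simpa [h2] using this
  · intro n m hn hm
    obtain ⟨n', rfl⟩ : ∃ n', n = n' + 1 := ⟨n - 1, by omega⟩
    obtain ⟨m', rfl⟩ : ∃ m', m = m' + 1 := ⟨m - 1, by omega⟩
    have hz : 0 ≤ i₀ + (n' + 1 : ℕ) + (m' : ℤ) := by push_cast; omega
    have h1 := hh_succ_of_nonneg d d' hz
    have h2 := hh_gap (l := i₀ + 1) (k := i₀ + (n' + 1 : ℕ)) hdm hd hd' (by push_cast; omega) m'
    have e1 : i₀ + ((n' + 1 : ℕ) : ℤ) + ((m' + 1 : ℕ) : ℤ) =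
        i₀ + ((n' + 1 : ℕ) : ℤ) + (m' : ℤ) + 1 := by push_cast; ring
    have e2 : i₀ + ((0 : ℕ) : ℤ) + ((m' + 1 : ℕ) : ℤ) = i₀ + 1 + (m' : ℤ) := by push_cast; ring
    have e3 : (i₀ + (((n' + 1 + (m' + 1) : ℕ)) : ℤ) - 1) = i₀ + (n' + 1 : ℕ) + (m' : ℤ) := by
      push_cast; ring
    have e4 : i₀ + ((0 : ℕ) : ℤ) = i₀ := by simp
    rw [e1, e2, e3, e4, hK, ← Real.exp_add, ← Real.exp_add, ← Real.exp_add]
    apply Real.exp_le_exp.2
    rw [h1]
    linarith only [h2]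
  · intro m
    have h1 := horth m
    rw [← h1]
    rw [← hinj.tsum_eq (f := fun k : ℤ =>
      (Real.exp (hh d d' (k + m) - hh d d' k) : ℂ) * (u k * v (k + m)))]
    · apply tsum_congr
      intro n
      have e1 : i₀ + ((n + m : ℕ) : ℤ) = i₀ + n + m := by push_cast; ring
      simp only [e1]
    · intro k hk
      by_contra hcon
      apply hk
      have : k < i₀ := by
        by_contra hge
        push Not at hge
        apply hcon
        refine ⟨(k - i₀).toNat, ?_⟩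
        simp only
        omega
      simp [hlow k this]

/-- part (c): a last nonzero entry of `v` forces `u` to vanish to the left of it. -/
theorem part_c {c : ℝ} (hc : 0 < c) {d d' : ℕ → ℝ} (hdm' : Monotone d')
    (hd : ∀ n, 0 ≤ d n) (hd' : ∀ n, 0 ≤ d' n) (hg' : ∀ n : ℕ, c * ((n : ℝ) + 1) ^ 2 ≤ d' n)
    {u v : ℤ → ℂ} (hu : Summable fun k => ‖u k‖ ^ 2) (hv : Summable fun k => ‖v k‖ ^ 2)
    (horth : ∀ m : ℕ, ∑' k : ℤ,
      (Real.exp (hh d d' (k + m) - hh d d' k) : ℂ) * (u k * v (k + m)) = 0)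
    {j₀ : ℤ} (hj₀ : v j₀ ≠ 0) (hup : ∀ k, j₀ < k → v k = 0) :
    ∀ i, i ≤ j₀ → u i = 0 := by
  have hneg : Function.Injective (fun k : ℤ => -k) := neg_injective
  have hmain := part_b (d := d') (d' := d) hc hdm' hd' hd hg' (u := fun k => v (-k))
    (v := fun k => u (-k)) (hv.comp_injective hneg) (hu.comp_injective hneg) ?_
    (i₀ := -j₀) (by simpa using hj₀) ?_
  · intro i hi
    have := hmain (-i) (by omega)
    simpa using this
  · intro m
    rw [← horth m]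
    rw [← (Equiv.subLeft (-(m : ℤ))).tsum_eq]
    apply tsum_congr
    intro k
    simp only [Equiv.subLeft_apply]
    rw [hh_swap d d' (-(m : ℤ) - k + m), hh_swap d d' (-(m : ℤ) - k)]
    have e1 : -(-(m : ℤ) - k + m) = k := by ring
    have e2 : -(-(m : ℤ) - k) = k + m := by ring
    rw [e1, e2]
    have e3 : -hh d d' k - -hh d d' (k + m) = hh d d' (k + m) - hh d d' k := by ring
    rw [e3]
    ring
  · intro k hk
    exact hup _ (by omega)

end Vale.Agent.P131.Uni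
end
end

section

section

namespace Vale.Agent.P131.Uni

open MeasureTheory Finset

/-- partial sums comparison used for the tails -/
theorem sum_tail {d : ℕ → ℝ} (hdm : Monotone d) {k m : ℕ} (hk : 1 ≤ k) (hm : 1 ≤ m) :
    (∑ j ∈ range k, d j) - ∑ j ∈ range (m + k), d j ≤
      -(∑ j ∈ range (m + 1), d j) + (d 0 + d 1) - d k := by
  obtain ⟨m', rfl⟩ : ∃ m', m = m' + 1 := ⟨m - 1, by omega⟩
  have h1 : ∑ j ∈ range (m' + 1 + k), d j =
      (∑ j ∈ range k, d j) + (∑ i ∈ range m', d (k + (i + 1)) + d (k + 0)) := by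
    rw [show m' + 1 + k = k + (m' + 1) by ring, Finset.sum_range_add, Finset.sum_range_succ']
  have h2 : ∑ j ∈ range (m' + 1 + 1), d j = (∑ i ∈ range m', d (i + 1 + 1)) + d 1 + d 0 := by
    rw [Finset.sum_range_succ', Finset.sum_range_succ']
  have h3 : ∑ i ∈ range m', d (i + 1 + 1) ≤ ∑ i ∈ range m', d (k + (i + 1)) :=
    Finset.sum_le_sum (fun i _ => hdm (by omega))
  rw [h1, h2]
  simp only [add_zero]
  linarith only [h3]

theorem W_zero_eq (d : ℕ → ℝ) (n : ℕ) : W d 0 n = Real.exp (-∑ j ∈ range n, d j) := by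
  unfold W
  congr 1
  rw [← Finset.sum_neg_distrib]
  apply Finset.sum_congr rfl
  intro j _
  ring

theorem W_tail {d : ℕ → ℝ} (hdm : Monotone d) {k m : ℕ} (hk : 1 ≤ k) (hm : 1 ≤ m) :
    Real.exp ((∑ j ∈ range k, d j) - ∑ j ∈ range (m + k), d j) ≤
      Real.exp (d 0 + d 1) * Real.exp (-(d k)) * W d 0 (m + 1) := by
  rw [W_zero_eq, ← Real.exp_add, ← Real.exp_add]
  apply Real.exp_le_exp.2
  have := sum_tail hdm hk hm
  linarith only [this]

/-- envelope of a null sequence which is frequently nonzero -/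
theorem exists_env {x : ℕ → ℂ} (hx : Filter.Tendsto (fun n => ‖x n‖) Filter.atTop (nhds 0))
    (hne : ∀ n, ∃ i, n ≤ i ∧ x i ≠ 0) :
    ∃ α : ℕ → ℝ, Antitone α ∧ (∀ n, 0 < α n) ∧ (∀ n i, n ≤ i → ‖x i‖ ≤ α n) ∧
      (∀ n, ∃ N, n ≤ N ∧ ‖x N‖ = α n) := by
  choose N hN hxN hmax using fun n => exists_record hx n (hne n)
  refine ⟨fun n => ‖x (N n)‖, ?_, ?_, ?_, ?_⟩
  · intro n m hnm
    exact hmax n (N m) (hnm.trans (hN m))
  · intro n
    exact norm_pos_iff.2 (hxN n)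
  · intro n i hi
    exact hmax n i hi
  · intro n
    exact ⟨N n, hN n, rfl⟩

theorem summable_natAbs {e : ℕ → ℝ} (he : Summable e) : Summable fun k : ℤ => e k.natAbs := by
  apply Summable.of_nat_of_neg
  · simpa using he
  · simpa using he

/-- part (a): the convolution estimate -/
theorem conv_est {c : ℝ} (hc : 0 < c) {d d' : ℕ → ℝ} (hdm : Monotone d) (hdm' : Monotone d')
    (hd : ∀ n, 0 ≤ d n) (hd' : ∀ n, 0 ≤ d' n)
    (hg : ∀ n : ℕ, c * ((n : ℝ) + 1) ^ 2 ≤ d n) (hg' : ∀ n : ℕ, c * ((n : ℝ) + 1) ^ 2 ≤ d' n)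
    {u v : ℤ → ℂ} (hu : Summable fun k => ‖u k‖ ^ 2) (hv : Summable fun k => ‖v k‖ ^ 2)
    (horth : ∀ m : ℕ, ∑' k : ℤ,
      (Real.exp (hh d d' (k + m) - hh d d' k) : ℂ) * (u k * v (k + m)) = 0)
    {α β : ℕ → ℝ} (hα0 : ∀ n, 0 < α n) (hβ0 : ∀ n, 0 < β n)
    (hα : ∀ n i : ℕ, n ≤ i → ‖u (-(i : ℤ))‖ ≤ α n) (hβ : ∀ n i : ℕ, n ≤ i → ‖v i‖ ≤ β n) :
    ∃ C : ℝ, ∀ m : ℕ, 1 ≤ m →
      ‖∑ p ∈ antidiagonal m, (u (-(p.1 : ℤ)) * (W d' 0 p.1 : ℂ)) * (v p.2 * (W d 0 p.2 : ℂ))‖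
        ≤ C * (α (m + 1) * W d' 0 (m + 1) + β (m + 1) * W d 0 (m + 1)) := by
  classical
  obtain ⟨A, hA⟩ := bounded_of_summable_sq hu
  obtain ⟨B, hB⟩ := bounded_of_summable_sq hv
  have hA0 : 0 ≤ A := (norm_nonneg _).trans (hA 0)
  have hB0 : 0 ≤ B := (norm_nonneg _).trans (hB 0)
  have hanti := hh_antitone hd hd'
  have hes := summable_natAbs (summable_exp_neg hc hg)
  have hes' := summable_natAbs (summable_exp_neg hc hg')
  set E : ℝ := ∑' k : ℤ, Real.exp (-(d k.natAbs)) with hE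
  set E' : ℝ := ∑' k : ℤ, Real.exp (-(d' k.natAbs)) with hE'
  have hE0 : 0 ≤ E := tsum_nonneg (fun k => (Real.exp_pos _).le)
  have hE0' : 0 ≤ E' := tsum_nonneg (fun k => (Real.exp_pos _).le)
  set D : ℝ := A * Real.exp (d 0 + d 1) with hD
  set D' : ℝ := B * Real.exp (d' 0 + d' 1) with hD'
  have hD0 : 0 ≤ D := by positivity
  have hD0' : 0 ≤ D' := by positivity
  refine ⟨D * E + D' * E', fun m hm => ?_⟩
  set f : ℤ → ℂ := fun k => (Real.exp (hh d d' (k + m) - hh d d' k) : ℂ) * (u k * v (k + m))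
    with hf
  have hfn : ∀ k, ‖f k‖ = Real.exp (hh d d' (k + m) - hh d d' k) * (‖u k‖ * ‖v (k + m)‖) := by
    intro k
    simp only [hf, norm_mul, Complex.norm_real, Real.norm_eq_abs, Real.abs_exp]
  -- summability of f
  have hfs : Summable f := by
    have hv' : Summable fun k : ℤ => ‖v (k + m)‖ ^ 2 :=
      hv.comp_injective (add_left_injective (m : ℤ))
    refine Summable.of_norm_bounded (hu.add hv') (fun k => ?_)
    rw [hfn]
    have h1 : Real.exp (hh d d' (k + m) - hh d d' k) ≤ 1 := by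
      rw [Real.exp_le_one_iff]
      have := hanti (show k ≤ k + (m : ℤ) by omega)
      linarith only [this]
    have h2 : ‖u k‖ * ‖v (k + m)‖ ≤ ‖u k‖ ^ 2 + ‖v (k + m)‖ ^ 2 := by
      nlinarith only []
    calc _ ≤ 1 * (‖u k‖ * ‖v (k + m)‖) :=
          mul_le_mul_of_nonneg_right h1 (by (clear * -; positivity))
      _ ≤ _ := by rw [one_mul]; exact h2
  -- the finite set
  set s : Finset ℤ := (antidiagonal m).image (fun p => -(p.1 : ℤ)) with hs
  have hsum : ∑ k ∈ s, f k =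
      ∑ p ∈ antidiagonal m, (u (-(p.1 : ℤ)) * (W d' 0 p.1 : ℂ)) * (v p.2 * (W d 0 p.2 : ℂ)) := by
    rw [hs, Finset.sum_image]
    · apply Finset.sum_congr rfl
      intro p hp
      rw [HasAntidiagonal.mem_antidiagonal] at hp
      have e1 : -(p.1 : ℤ) + m = (p.2 : ℤ) := by omega
      simp only [hf]
      rw [e1, hh_natCast, hh_neg_natCast, W_zero_eq, W_zero_eq, sub_eq_add_neg, Real.exp_add]
      push_cast
      ring
    · intro p hp q hq hpq
      have hp' := HasAntidiagonal.mem_antidiagonal.1 hp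
      have hq' := HasAntidiagonal.mem_antidiagonal.1 hq
      simp only at hpq
      ext <;> omega
  have hmem : ∀ k : ℤ, k ∉ s → 1 ≤ k ∨ k + m ≤ -1 := by
    intro k hk
    by_contra hcon
    push Not at hcon
    apply hk
    rw [hs, Finset.mem_image]
    refine ⟨((-k).toNat, (k + m).toNat), ?_, ?_⟩
    · rw [HasAntidiagonal.mem_antidiagonal]
      omega
    · simp only
      omega
  -- pointwise majorant
  set gb : ℤ → ℝ := fun k => D * (β (m + 1) * W d 0 (m + 1)) * Real.exp (-(d k.natAbs)) +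
    D' * (α (m + 1) * W d' 0 (m + 1)) * Real.exp (-(d' (k + m).natAbs)) with hgb
  have hWpos : ∀ (e : ℕ → ℝ) (n : ℕ), 0 < W e 0 n := fun e n => Real.exp_pos _
  have hgb0 : ∀ k, 0 ≤ gb k := by
    intro k
    have h1 := (hWpos d (m + 1)).le
    have h2 := (hWpos d' (m + 1)).le
    have h3 := (hα0 (m + 1)).le
    have h4 := (hβ0 (m + 1)).le
    simp only [hgb]
    (clear * - hA0 h4 h1 hB0 h3 h2; positivity)
  have hgs : Summable gb := by
    apply Summable.add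
    · exact hes.mul_left _
    · exact (hes'.comp_injective (add_left_injective (m : ℤ))).mul_left _
  have hgt : ∑' k, gb k = D * (β (m + 1) * W d 0 (m + 1)) * E +
      D' * (α (m + 1) * W d' 0 (m + 1)) * E' := by
    have hq : ∑' k : ℤ, Real.exp (-(d' (k + m).natAbs)) = E' :=
      (Equiv.addRight (m : ℤ)).tsum_eq (fun k : ℤ => Real.exp (-(d' k.natAbs)))
    have hs2 : Summable fun k : ℤ => Real.exp (-(d' (k + m).natAbs)) :=
      hes'.comp_injective (add_left_injective (m : ℤ))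
    calc ∑' k, gb k = ∑' k : ℤ, (D * (β (m + 1) * W d 0 (m + 1)) * Real.exp (-(d k.natAbs)) +
          D' * (α (m + 1) * W d' 0 (m + 1)) * Real.exp (-(d' (k + m).natAbs))) := rfl
      _ = _ := by
        rw [Summable.tsum_add (hes.mul_left _) (hs2.mul_left _), tsum_mul_left, tsum_mul_left,
          hq]
  have hbound : ∀ k, k ∉ s → ‖f k‖ ≤ gb k := by
    intro k hk
    have h1 := (hWpos d (m + 1)).le
    have h2 := (hWpos d' (m + 1)).le
    have h3 := (hα0 (m + 1)).le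
    have h4 := (hβ0 (m + 1)).le
    rw [hfn]
    rcases hmem k hk with h | h
    · obtain ⟨a, rfl⟩ := Int.eq_ofNat_of_zero_le (show 0 ≤ k by omega)
      have ha : 1 ≤ a := by omega
      have e1 : ((a : ℤ) + m) = ((m + a : ℕ) : ℤ) := by push_cast; ring
      have h5 : Real.exp (hh d d' ((a : ℤ) + m) - hh d d' a) ≤
          Real.exp (d 0 + d 1) * Real.exp (-(d a)) * W d 0 (m + 1) := by
        rw [e1, hh_natCast, hh_natCast]
        refine le_trans (le_of_eq ?_) (W_tail hdm ha hm)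
        congr 1; ring
      have h6 : ‖v ((a : ℤ) + m)‖ ≤ β (m + 1) := by
        rw [e1]; exact hβ _ _ (by omega)
      have h7 : Real.exp (hh d d' ((a : ℤ) + m) - hh d d' a) * (‖u a‖ * ‖v ((a : ℤ) + m)‖) ≤
          (Real.exp (d 0 + d 1) * Real.exp (-(d a)) * W d 0 (m + 1)) * (A * β (m + 1)) :=
        mul_le_mul h5 (mul_le_mul (hA _) h6 (norm_nonneg _) hA0) (by (clear * -; positivity)) (by (clear * - h1; positivity))
      refine h7.trans ?_
      simp only [hgb, hD, Int.natAbs_natCast]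
      have h8 : 0 ≤ D' * (α (m + 1) * W d' 0 (m + 1)) *
          Real.exp (-(d' ((a : ℤ) + m).natAbs)) := by (clear * - hB0 h3 h2; positivity)
      refine le_trans (le_of_eq ?_) (le_add_of_nonneg_right h8)
      ring
    · obtain ⟨b, hb⟩ := Int.eq_ofNat_of_zero_le (show 0 ≤ -(k + m) by omega)
      have hb1 : 1 ≤ b := by omega
      have e1 : k + m = -(b : ℤ) := by omega
      have e2 : k = -((m + b : ℕ) : ℤ) := by push_cast; omega
      have h5 : Real.exp (hh d d' (k + m) - hh d d' k) ≤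
          Real.exp (d' 0 + d' 1) * Real.exp (-(d' b)) * W d' 0 (m + 1) := by
        rw [e1, e2, hh_neg_natCast, hh_neg_natCast]
        exact W_tail hdm' hb1 hm
      have h6 : ‖u k‖ ≤ α (m + 1) := by
        rw [e2]; exact hα _ _ (by omega)
      have h7 : Real.exp (hh d d' (k + m) - hh d d' k) * (‖u k‖ * ‖v (k + m)‖) ≤
          (Real.exp (d' 0 + d' 1) * Real.exp (-(d' b)) * W d' 0 (m + 1)) * (α (m + 1) * B) :=
        mul_le_mul h5 (mul_le_mul h6 (hB _) (norm_nonneg _) h3) (by (clear * -; positivity)) (by (clear * - h2; positivity))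
      refine h7.trans ?_
      have e3 : (k + (m : ℤ)).natAbs = b := by omega
      simp only [hgb, hD', e3]
      have h8 : 0 ≤ D * (β (m + 1) * W d 0 (m + 1)) * Real.exp (-(d k.natAbs)) := by (clear * - hA0 h4 h1; positivity)
      refine le_trans (le_of_eq ?_) (le_add_of_nonneg_left h8)
      ring
  -- conclusion
  rw [← hsum]
  have hzero : ∑' k, f k = 0 := horth m
  have hdecomp := hfs.sum_add_tsum_compl (s := s)
  rw [hzero] at hdecomp
  have hn : ‖∑ k ∈ s, f k‖ = ‖∑' k : ((s : Set ℤ)ᶜ : Set ℤ), f k‖ := by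
    rw [eq_neg_of_add_eq_zero_left hdecomp, norm_neg]
  rw [hn]
  have h9 : ‖∑' k : ((s : Set ℤ)ᶜ : Set ℤ), f k‖ ≤ ∑' k : ((s : Set ℤ)ᶜ : Set ℤ), gb k := by
    apply tsum_of_norm_bounded (hgs.subtype _).hasSum
    rintro ⟨k, hk⟩
    exact hbound k (by simpa using hk)
  have h10 : ∑' k : ((s : Set ℤ)ᶜ : Set ℤ), gb k ≤ ∑' k, gb k :=
    hgs.tsum_subtype_le _ _ hgb0
  refine (h9.trans h10).trans ?_
  rw [hgt]
  have h1 := (hWpos d (m + 1)).le
  have h2 := (hWpos d' (m + 1)).le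
  have h3 := (hα0 (m + 1)).le
  have h4 := (hβ0 (m + 1)).le
  have h11 : 0 ≤ D * E * (α (m + 1) * W d' 0 (m + 1)) := by (clear * - hA0 h3 h2; positivity)
  have h12 : 0 ≤ D' * E' * (β (m + 1) * W d 0 (m + 1)) := by (clear * - hB0 h4 h1; positivity)
  nlinarith only [h11, h12]

end Vale.Agent.P131.Uni

namespace Vale.Agent.P131

open MeasureTheory Finset Uni

theorem unicell {c : ℝ} (hc : 0 < c) {d d' : ℕ → ℝ} (hd : Monotone d) (hd' : Monotone d')
    (hdd : ∀ n, d n ≤ d' n) (hg : ∀ n : ℕ, c * ((n : ℝ) + 1) ^ 2 ≤ d n)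
    {u v : ℤ → ℂ} (hu : Summable fun k => ‖u k‖ ^ 2) (hv : Summable fun k => ‖v k‖ ^ 2)
    (horth : ∀ m : ℕ, ∑' k : ℤ,
      (Real.exp (hh d d' (k + m) - hh d d' k) : ℂ) * (u k * v (k + m)) = 0)
    {i j : ℤ} (hi : u i ≠ 0) (hj : v j ≠ 0) : j < i := by
  have hd0 : ∀ n, 0 ≤ d n := fun n => le_trans (by positivity) (hg n)
  have hd0' : ∀ n, 0 ≤ d' n := fun n => (hd0 n).trans (hdd n)
  have hg' : ∀ n : ℕ, c * ((n : ℝ) + 1) ^ 2 ≤ d' n := fun n => (hg n).trans (hdd n)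
  by_contra hlt
  push Not at hlt
  -- case (b): u has a first nonzero entry
  by_cases hub : ∃ n : ℕ, ∀ k : ℕ, n ≤ k → u (-(k : ℤ)) = 0
  · obtain ⟨n, hn⟩ := hub
    obtain ⟨i₀, hi₀, hmin⟩ : ∃ i₀ : ℤ, u i₀ ≠ 0 ∧ ∀ k, u k ≠ 0 → i₀ ≤ k := by
      apply Int.exists_least_of_bdd
      · refine ⟨-(n : ℤ), fun z hz => ?_⟩
        by_contra hcon
        push Not at hcon
        apply hz
        have := hn (-z).toNat (by omega)
        have e : -(((-z).toNat : ℕ) : ℤ) = z := by omega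
        rwa [e] at this
      · exact ⟨i, hi⟩
    have hv0 := part_b hc hd hd0 hd0' hg hu hv horth hi₀ (fun k hk => by
      by_contra hne
      exact absurd (hmin k hne) (by omega))
    exact hj (hv0 j ((hmin i hi).trans hlt))
  by_cases hvb : ∃ n : ℕ, ∀ k : ℕ, n ≤ k → v k = 0
  · obtain ⟨n, hn⟩ := hvb
    obtain ⟨j₀, hj₀, hmax⟩ : ∃ j₀ : ℤ, v j₀ ≠ 0 ∧ ∀ k, v k ≠ 0 → k ≤ j₀ := by
      apply Int.exists_greatest_of_bdd
      · refine ⟨(n : ℤ), fun z hz => ?_⟩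
        by_contra hcon
        push Not at hcon
        apply hz
        have := hn z.toNat (by omega)
        have e : ((z.toNat : ℕ) : ℤ) = z := by omega
        rwa [e] at this
      · exact ⟨j, hj⟩
    have hu0 := part_c hc hd' hd0 hd0' hg' hu hv horth hj₀ (fun k hk => by
      by_contra hne
      exact absurd (hmax k hne) (by omega))
    exact hi (hu0 i (hlt.trans (hmax j hj)))
  -- case (a)
  have hneg : Function.Injective (fun n : ℕ => -(n : ℤ)) := by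
    intro a b hab
    simpa using hab
  have hpos : Function.Injective (fun n : ℕ => (n : ℤ)) := Nat.cast_injective
  obtain ⟨α, hα, hα0, hαx, hαr⟩ := exists_env (x := fun n : ℕ => u (-(n : ℤ)))
    (tendsto_norm_of_summable_sq (hu.comp_injective hneg)) (by
      intro n
      by_contra hcon
      push Not at hcon
      exact hub ⟨n, hcon⟩)
  obtain ⟨β, hβ, hβ0, hβy, hβr⟩ := exists_env (x := fun n : ℕ => v (n : ℤ))
    (tendsto_norm_of_summable_sq (hv.comp_injective hpos)) (by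
      intro n
      by_contra hcon
      push Not at hcon
      exact hvb ⟨n, hcon⟩)
  obtain ⟨C, hC⟩ := conv_est hc hd hd' hd0 hd0' hg hg' hu hv horth hα0 hβ0 hαx hβy
  exact core_false hc hd hd' hdd hg hα hβ hα0 hβ0 (fun n => hαx n n le_rfl)
    (fun n => hβy n n le_rfl) hαr hβr C hC

end Vale.Agent.P131
end
end

section

section

namespace Vale.Agent.P131

open MeasureTheory Finset
open scoped ENNReal

/-! ### blocks -/

theorem log_ge (n : ℕ) : 8 ≤ Nat.log 2 (n + 256) := by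
  have h : 8 = Nat.log 2 256 := by
    rw [show (256 : ℕ) = 2 ^ 8 by norm_num, Nat.log_pow (by norm_num)]
  rw [h]
  exact Nat.log_mono_right (by omega)

theorem blk_eq_iff (n a : ℕ) : blk n = a ↔ 2 ^ (a + 8) ≤ n + 256 ∧ n + 256 < 2 ^ (a + 9) := by
  have h8 := log_ge n
  unfold blk
  constructor
  · intro h
    have h1 : Nat.log 2 (n + 256) = a + 8 := by omega
    rw [Nat.log_eq_iff (Or.inr ⟨by norm_num, by omega⟩)] at h1
    exact h1
  · intro h
    have h1 : Nat.log 2 (n + 256) = a + 8 := by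
      rw [Nat.log_eq_iff (Or.inr ⟨by norm_num, by omega⟩)]
      exact h
    omega

theorem blk_mono : Monotone blk := by
  intro n m h
  unfold blk
  have := Nat.log_mono_right (b := 2) (show n + 256 ≤ m + 256 by omega)
  omega

theorem ph_nonneg (a : ℕ) (t : ℝ) : 0 ≤ ph a t := Int.fract_nonneg _

theorem ph_lt_one (a : ℕ) (t : ℝ) : ph a t < 1 := Int.fract_lt_one _

theorem pow_four_pos (a : ℕ) : (0 : ℝ) < 4 ^ a := by positivity

theorem dr_nonneg (t : ℝ) (n : ℕ) : 0 ≤ dr t n := by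
  unfold dr
  have := ph_nonneg (blk n) t
  positivity

theorem dl_nonneg (t : ℝ) (n : ℕ) : 0 ≤ dl t n := by
  unfold dl
  have := ph_lt_one (blk n) t
  exact mul_nonneg (pow_four_pos _).le (by linarith)

theorem pow_four_succ_le {a b : ℕ} (h : a < b) : (4 : ℝ) * 4 ^ a ≤ 4 ^ b := by
  rw [← pow_succ']
  exact pow_le_pow_right₀ (by norm_num) h

theorem dr_mono (t : ℝ) : Monotone (dr t) := by
  intro n m h
  have hb := blk_mono h
  unfold dr
  rcases hb.eq_or_lt with h1 | h1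
  · rw [h1]
  · have h2 := pow_four_succ_le h1
    have h3 := ph_lt_one (blk n) t
    have h4 := ph_nonneg (blk m) t
    have h5 := pow_four_pos (blk n)
    have h6 := pow_four_pos (blk m)
    nlinarith only [h2, h5, h4, h3]

theorem dl_mono (t : ℝ) : Monotone (dl t) := by
  intro n m h
  have hb := blk_mono h
  unfold dl
  rcases hb.eq_or_lt with h1 | h1
  · rw [h1]
  · have h2 := pow_four_succ_le h1
    have h3 := ph_nonneg (blk n) t
    have h4 := ph_lt_one (blk m) t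
    have h5 := pow_four_pos (blk n)
    have h6 := pow_four_pos (blk m)
    nlinarith only [h2, h5, h3, h4]

theorem dr_le_dl (t : ℝ) (n : ℕ) : dr t n ≤ dl t n := by
  unfold dr dl
  have h4 := ph_lt_one (blk n) t
  exact mul_le_mul_of_nonneg_left (by linarith) (pow_four_pos _).le

theorem dr_growth : ∃ c : ℝ, 0 < c ∧ ∀ (t : ℝ) (n : ℕ), c * ((n : ℝ) + 1) ^ 2 ≤ dr t n := by
  refine ⟨1 / 512 ^ 2, by positivity, fun t n => ?_⟩
  unfold dr
  have h1 := ((blk_eq_iff n (blk n)).1 rfl).2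
  generalize blk n = a at h1 ⊢
  have e1 : 2 ^ (a + 9) = 2 ^ a * 512 := by rw [pow_add]; norm_num
  rw [e1] at h1
  have h2 : ((n : ℝ) + 256) < 2 ^ a * 512 := by exact_mod_cast h1
  have h3 : ((n : ℝ) + 1) / 512 ≤ 2 ^ a := by
    rw [div_le_iff₀ (by norm_num)]
    linarith only [h2]
  have h4 : (((n : ℝ) + 1) / 512) ^ 2 ≤ (2 ^ a) ^ 2 :=
    pow_le_pow_left₀ (by (clear * -; positivity)) h3 2
  have h5 : ((2 : ℝ) ^ a) ^ 2 = 4 ^ a := by
    rw [← pow_mul, mul_comm, pow_mul]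
    norm_num
  have h6 : (4 : ℝ) ^ a ≤ 4 ^ a * (1 + ph a t) := by
    have := mul_nonneg (pow_four_pos a).le (ph_nonneg a t)
    linarith only [this]
  calc 1 / 512 ^ 2 * ((n : ℝ) + 1) ^ 2 = (((n : ℝ) + 1) / 512) ^ 2 := by ring
    _ ≤ (2 ^ a) ^ 2 := h4
    _ = 4 ^ a := h5
    _ ≤ 4 ^ a * (1 + ph a t) := h6

/-! ### the potential -/

theorem ph_measurable (a : ℕ) : Measurable (ph a) := by
  unfold ph
  exact measurable_fract.comp (measurable_const.mul measurable_id)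

theorem hp_measurable (n : ℤ) : Measurable fun t => hp t n := by
  unfold hp hh
  refine Measurable.sub ?_ ?_
  · refine Finset.measurable_fun_sum _ fun j _ => ?_
    unfold dl
    exact measurable_const.mul (measurable_const.sub (ph_measurable _))
  · refine Finset.measurable_fun_sum _ fun j _ => ?_
    unfold dr
    exact measurable_const.mul (measurable_const.add (ph_measurable _))

theorem hh_natCast (d d' : ℕ → ℝ) (n : ℕ) : hh d d' (n : ℤ) = -∑ j ∈ range n, d j := by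
  unfold hh
  have h1 : (-(n : ℤ)).toNat = 0 := by omega
  have h2 : ((n : ℤ)).toNat = n := by omega
  rw [h1, h2, Finset.sum_range_zero, zero_sub]

theorem hh_neg_natCast (d d' : ℕ → ℝ) (n : ℕ) : hh d d' (-(n : ℤ)) = ∑ j ∈ range n, d' j := by
  unfold hh
  have h1 : (-(-(n : ℤ))).toNat = n := by omega
  have h2 : (-(n : ℤ)).toNat = 0 := by omega
  rw [h1, h2, Finset.sum_range_zero, sub_zero]

theorem hp_antitone (t : ℝ) : Antitone (hp t) := by
  apply antitone_int_of_succ_le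
  intro z
  unfold hp
  rcases Int.eq_ofNat_of_zero_le (show 0 ≤ |z| from abs_nonneg z) with ⟨k, hk⟩
  rcases le_or_gt 0 z with h | h
  · obtain ⟨n, rfl⟩ := Int.eq_ofNat_of_zero_le h
    have e : ((n : ℤ) + 1) = ((n + 1 : ℕ) : ℤ) := by push_cast; ring
    rw [e, hh_natCast, hh_natCast, Finset.sum_range_succ]
    have := dr_nonneg t n
    linarith
  · obtain ⟨n, hn⟩ : ∃ n : ℕ, z = -((n + 1 : ℕ) : ℤ) := ⟨(-z - 1).toNat, by omega⟩
    have e : z + 1 = -(n : ℤ) := by omega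
    rw [e, hn, hh_neg_natCast, hh_neg_natCast, Finset.sum_range_succ]
    have := dl_nonneg t n
    linarith

/-! ### dyadic translations -/

theorem ee_ge (a : ℕ) : a ≤ ee a := by
  unfold ee
  induction a with
  | zero => simp
  | succ a ih => rw [Finset.sum_range_succ]; omega

theorem ph_dyadic (k : ℤ) (N a : ℕ) (h : N ≤ ee a) (t : ℝ) :
    ph a (t - k / 2 ^ N) = ph a t := by
  unfold ph
  have e : (2 : ℝ) ^ (ee a) * (t - k / 2 ^ N) = 2 ^ (ee a) * t - ((2 ^ (ee a - N) * k : ℤ) : ℝ) := by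
    push_cast
    have h2 : (2 : ℝ) ^ (ee a) = 2 ^ (ee a - N) * 2 ^ N := by
      rw [← pow_add]; congr 1; omega
    rw [h2]
    field_simp
  rw [e, Int.fract_sub_intCast]

theorem blk_ge (a j : ℕ) (h : 2 ^ (a + 8) ≤ j) : a ≤ blk j := by
  unfold blk
  have : a + 8 ≤ Nat.log 2 (j + 256) := by
    apply Nat.le_log_of_pow_le (by norm_num)
    omega
  omega

theorem sum_bound (f : ℕ → ℝ) (g : ℕ → ℝ) (J : ℕ) (hf : ∀ j, |f j| ≤ g j)
    (h0 : ∀ j, J ≤ j → f j = 0) (n : ℕ) : |∑ j ∈ range n, f j| ≤ ∑ j ∈ range J, g j := by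
  calc |∑ j ∈ range n, f j| ≤ ∑ j ∈ range n, |f j| := Finset.abs_sum_le_sum_abs _ _
    _ = ∑ j ∈ (range n).filter (fun j => j < J), |f j| := by
        rw [Finset.sum_filter]
        refine Finset.sum_congr rfl fun j _ => ?_
        split_ifs with h
        · rfl
        · rw [h0 j (by omega), abs_zero]
    _ ≤ ∑ j ∈ range J, |f j| := by
        refine Finset.sum_le_sum_of_subset_of_nonneg ?_ fun j _ _ => abs_nonneg _
        intro j hj
        exact Finset.mem_range.2 (Finset.mem_filter.1 hj).2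
    _ ≤ ∑ j ∈ range J, g j := Finset.sum_le_sum fun j _ => hf j

/-- dyadic translations give bounded similarities -/
theorem hp_dyadic (k : ℤ) (N : ℕ) : ∃ C : ℝ, ∀ (t : ℝ) (n : ℤ),
    hp t n - hp (t - k / 2 ^ N) n ≤ C := by
  refine ⟨∑ j ∈ range (2 ^ (N + 8)), (4 : ℝ) ^ (blk j), fun t n => ?_⟩
  set t' := t - k / 2 ^ N with ht'
  have habs : ∀ a, |ph a t - ph a t'| ≤ 1 := by
    intro a
    rw [abs_le]
    have h1 := ph_nonneg a t
    have h2 := ph_nonneg a t'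
    have h3 := ph_lt_one a t
    have h4 := ph_lt_one a t'
    constructor <;> linarith
  have hz : ∀ j, 2 ^ (N + 8) ≤ j → ph (blk j) t' = ph (blk j) t := by
    intro j hj
    exact ph_dyadic k N _ ((blk_ge N j hj).trans (ee_ge _)) t
  have hr := fun n => sum_bound (fun j => dr t j - dr t' j) (fun j => (4 : ℝ) ^ (blk j))
    (2 ^ (N + 8)) (fun j => by
      have : dr t j - dr t' j = 4 ^ (blk j) * (ph (blk j) t - ph (blk j) t') := by
        unfold dr; ring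
      rw [this, abs_mul, abs_of_pos (pow_four_pos _)]
      have := habs (blk j)
      nlinarith only [this, pow_four_pos (blk j)])
    (fun j hj => by unfold dr; rw [hz j hj, sub_self]) n
  have hl := fun n => sum_bound (fun j => dl t j - dl t' j) (fun j => (4 : ℝ) ^ (blk j))
    (2 ^ (N + 8)) (fun j => by
      have : dl t j - dl t' j = 4 ^ (blk j) * (-(ph (blk j) t - ph (blk j) t')) := by
        unfold dl; ring
      rw [this, abs_mul, abs_of_pos (pow_four_pos _), abs_neg]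
      have := habs (blk j)
      nlinarith only [this, pow_four_pos (blk j)])
    (fun j hj => by unfold dl; rw [hz j hj, sub_self]) n
  unfold hp
  rcases le_or_gt 0 n with h | h
  · obtain ⟨m, rfl⟩ := Int.eq_ofNat_of_zero_le h
    rw [hh_natCast, hh_natCast]
    have h1 := (abs_le.1 (hr m)).1
    rw [Finset.sum_sub_distrib] at h1
    linarith
  · obtain ⟨m, hm⟩ : ∃ m : ℕ, n = -(m : ℤ) := ⟨(-n).toNat, by omega⟩
    rw [hm, hh_neg_natCast, hh_neg_natCast]
    have h1 := (abs_le.1 (hl m)).2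
    rw [Finset.sum_sub_distrib] at h1
    linarith

/-! ### the key translation -/

/-- tails of the translation constant -/
noncomputable def cc (a : ℕ) : ℝ := ∑' j : ℕ, (1 / 2 : ℝ) ^ (ee (a + 1 + j))

theorem ee_succ (a : ℕ) : ee (a + 1) = ee a + (a + 4) := by
  unfold ee
  rw [Finset.sum_range_succ]

theorem ee_add_ge (a j : ℕ) : ee a + j ≤ ee (a + j) := by
  induction j with
  | zero => simp
  | succ j ih =>
    have h := ee_succ (a + j)
    rw [show a + (j + 1) = a + j + 1 by ring, h]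
    omega

theorem cc_summable (a : ℕ) : Summable fun j : ℕ => (1 / 2 : ℝ) ^ (ee (a + 1 + j)) := by
  refine Summable.of_nonneg_of_le (fun j => by positivity) (fun j => ?_) summable_geometric_two
  apply pow_le_pow_of_le_one (by norm_num) (by norm_num)
  have := ee_add_ge (a + 1) j
  omega

theorem cc_succ (a : ℕ) : cc a = (1 / 2) ^ (ee (a + 1)) + cc (a + 1) := by
  unfold cc
  rw [(cc_summable a).tsum_eq_zero_add]
  congr 1
  apply tsum_congr
  intro j
  congr 2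
  ring

theorem cc_nonneg (a : ℕ) : 0 ≤ cc a := tsum_nonneg fun j => by positivity

theorem cc_le (a : ℕ) : cc a ≤ 2 * (1 / 2) ^ (ee (a + 1)) := by
  have h1 : ∀ j : ℕ, (1 / 2 : ℝ) ^ (ee (a + 1 + j)) ≤ (1 / 2) ^ (ee (a + 1)) * (1 / 2) ^ j := by
    intro j
    rw [← pow_add]
    exact pow_le_pow_of_le_one (by norm_num) (by norm_num) (ee_add_ge (a + 1) j)
  have h2 : Summable fun j : ℕ => (1 / 2 : ℝ) ^ (ee (a + 1)) * (1 / 2) ^ j :=
    summable_geometric_two.mul_left _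
  calc cc a ≤ ∑' j : ℕ, (1 / 2 : ℝ) ^ (ee (a + 1)) * (1 / 2) ^ j :=
        (cc_summable a).tsum_le_tsum h1 h2
    _ = 2 * (1 / 2) ^ (ee (a + 1)) := by
        rw [tsum_mul_left, tsum_geometric_two]
        ring

/-- the shifts of the phases -/
noncomputable def th (a : ℕ) : ℝ := 2 ^ (ee a) * cc a

theorem two_pow_half (e k : ℕ) : (2 : ℝ) ^ e * (1 / 2) ^ (e + k) = (1 / 2) ^ k := by
  rw [pow_add, ← mul_assoc, ← mul_pow]
  norm_num

theorem th_ge (a : ℕ) : (1 / 2 : ℝ) ^ (a + 4) ≤ th a := by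
  unfold th
  rw [cc_succ, mul_add, ee_succ, two_pow_half]
  have := cc_nonneg (a + 1)
  have h2 : (0 : ℝ) ≤ 2 ^ (ee a) * cc (a + 1) := by positivity
  linarith

theorem th_le (a : ℕ) : th a ≤ (1 / 2 : ℝ) ^ (a + 3) := by
  unfold th
  have h := cc_le a
  have h1 : (2 : ℝ) ^ (ee a) * cc a ≤ 2 ^ (ee a) * (2 * (1 / 2) ^ (ee (a + 1))) :=
    mul_le_mul_of_nonneg_left h (by positivity)
  have h2 : (2 : ℝ) ^ (ee a) * (2 * (1 / 2) ^ (ee (a + 1))) = 2 * (1 / 2) ^ (a + 4) := by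
    rw [mul_left_comm, ee_succ, two_pow_half]
  rw [h2] at h1
  calc _ ≤ _ := h1
    _ = (1 / 2 : ℝ) ^ (a + 3) := by rw [pow_succ (1 / 2 : ℝ) (a + 3)]; ring

theorem exists_int (a : ℕ) : ∃ k : ℤ, (2 : ℝ) ^ (ee a) * cc 0 = k + th a := by
  induction a with
  | zero => exact ⟨0, by unfold th; simp⟩
  | succ a ih =>
    obtain ⟨k, hk⟩ := ih
    refine ⟨2 ^ (a + 4) * k + 1, ?_⟩
    unfold th at hk ⊢
    have h1 : (2 : ℝ) ^ (ee (a + 1)) = 2 ^ (a + 4) * 2 ^ (ee a) := by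
      rw [ee_succ, pow_add, mul_comm]
    have h2 : (2 : ℝ) ^ (ee (a + 1)) * (1 / 2) ^ (ee (a + 1)) = 1 := by
      rw [← mul_pow]; norm_num
    calc (2 : ℝ) ^ (ee (a + 1)) * cc 0 = 2 ^ (a + 4) * (2 ^ (ee a) * cc 0) := by rw [h1]; ring
      _ = 2 ^ (a + 4) * (k + 2 ^ (ee a) * cc a) := by rw [hk]
      _ = 2 ^ (a + 4) * k + (2 ^ (a + 4) * 2 ^ (ee a)) * cc a := by ring
      _ = 2 ^ (a + 4) * k + 2 ^ (ee (a + 1)) * ((1 / 2) ^ (ee (a + 1)) + cc (a + 1)) := by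
          rw [← h1, ← cc_succ]
      _ = 2 ^ (a + 4) * k + (2 ^ (ee (a + 1)) * (1 / 2) ^ (ee (a + 1)) +
            2 ^ (ee (a + 1)) * cc (a + 1)) := by ring
      _ = _ := by rw [h2]; push_cast; ring

theorem ph_shift (a : ℕ) (t : ℝ) (h : ph a t + th a < 1) : ph a (t + cc 0) = ph a t + th a := by
  obtain ⟨k, hk⟩ := exists_int a
  have h0 : 0 ≤ th a := le_trans (by positivity) (th_ge a)
  have e : ph a (t + cc 0) = Int.fract ((2 : ℝ) ^ (ee a) * (t + cc 0)) := rfl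
  rw [e, Int.fract_eq_iff]
  refine ⟨add_nonneg (ph_nonneg _ _) h0, h, ⌊(2 : ℝ) ^ (ee a) * t⌋ + k, ?_⟩
  have h1 : ph a t = (2 : ℝ) ^ (ee a) * t - ⌊(2 : ℝ) ^ (ee a) * t⌋ := rfl
  rw [mul_add, hk, h1]
  push_cast
  ring

/-- the good set -/
noncomputable def EE : Set ℝ := {t | t ∈ Set.Ico (0 : ℝ) 1 ∧ ∀ a, ph a t + th a < 1}

theorem EE_measurable : MeasurableSet EE := by
  have : EE = Set.Ico (0 : ℝ) 1 ∩ ⋂ a, {t | ph a t + th a < 1} := by
    ext t; simp only [EE, Set.mem_Ico, Set.mem_ofPred_eq, Set.mem_inter_iff, Set.mem_iInter]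
  rw [this]
  refine measurableSet_Ico.inter (MeasurableSet.iInter fun a => ?_)
  exact measurableSet_lt ((ph_measurable a).add_const _) measurable_const

theorem volume_bad (a : ℕ) :
    volume {t : ℝ | t ∈ Set.Ico (0 : ℝ) 1 ∧ 1 ≤ ph a t + th a} ≤ ENNReal.ofReal (th a) := by
  set M : ℕ := 2 ^ (ee a) with hM
  have hMpos : (0 : ℝ) < M := by rw [hM]; positivity
  have hMr : (M : ℝ) = 2 ^ (ee a) := by rw [hM]; push_cast; rfl
  have hsub : {t : ℝ | t ∈ Set.Ico (0 : ℝ) 1 ∧ 1 ≤ ph a t + th a} ⊆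
      ⋃ k ∈ range M, Set.Ico (((k : ℝ) + 1 - th a) / M) (((k : ℝ) + 1) / M) := by
    rintro t ⟨⟨ht0, ht1⟩, ht⟩
    have hfl : 0 ≤ ⌊(M : ℝ) * t⌋ := Int.floor_nonneg.2 (by positivity)
    obtain ⟨k, hk⟩ := Int.eq_ofNat_of_zero_le hfl
    have h1 : (k : ℝ) ≤ (M : ℝ) * t := by
      have := Int.floor_le ((M : ℝ) * t)
      rw [hk] at this
      exact_mod_cast this
    have h2 : (M : ℝ) * t < (k : ℝ) + 1 := by
      have := Int.lt_floor_add_one ((M : ℝ) * t)
      rw [hk] at this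
      exact_mod_cast this
    have h3 : ph a t = (M : ℝ) * t - k := by
      have : ph a t = (M : ℝ) * t - ⌊(M : ℝ) * t⌋ := by rw [hMr]; rfl
      rw [this, hk]
      simp
    simp only [Set.mem_iUnion]
    refine ⟨k, ?_, ?_⟩
    · rw [mem_range]
      have : (k : ℝ) < M := by nlinarith only [h1, hMpos, ht1]
      exact_mod_cast this
    · rw [Set.mem_Ico, div_le_iff₀ hMpos, lt_div_iff₀ hMpos]
      constructor
      · rw [h3] at ht
        linarith only [ht]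
      · linarith only [h2]
  calc volume {t : ℝ | t ∈ Set.Ico (0 : ℝ) 1 ∧ 1 ≤ ph a t + th a}
      ≤ volume (⋃ k ∈ range M, Set.Ico (((k : ℝ) + 1 - th a) / M) (((k : ℝ) + 1) / M)) :=
        measure_mono hsub
    _ ≤ ∑ k ∈ range M, volume (Set.Ico (((k : ℝ) + 1 - th a) / M) (((k : ℝ) + 1) / M)) :=
        measure_biUnion_finset_le _ _
    _ = ∑ k ∈ range M, ENNReal.ofReal (th a / M) := by
        refine Finset.sum_congr rfl fun k _ => ?_
        rw [Real.volume_Ico]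
        congr 1
        ring
    _ = ENNReal.ofReal (th a) := by
        rw [Finset.sum_const, card_range, nsmul_eq_mul, ← ENNReal.ofReal_natCast M,
          ← ENNReal.ofReal_mul hMpos.le]
        congr 1
        field_simp

theorem EE_pos : 0 < volume EE := by
  have h1 : Set.Ico (0 : ℝ) 1 ⊆ EE ∪ ⋃ a, {t : ℝ | t ∈ Set.Ico (0 : ℝ) 1 ∧ 1 ≤ ph a t + th a} := by
    intro t ht
    by_cases h : ∀ a, ph a t + th a < 1
    · exact Or.inl ⟨ht, h⟩
    · push Not at h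
      obtain ⟨a, ha⟩ := h
      exact Or.inr (Set.mem_iUnion.2 ⟨a, ht, ha⟩)
  have h2 : volume (⋃ a, {t : ℝ | t ∈ Set.Ico (0 : ℝ) 1 ∧ 1 ≤ ph a t + th a})
      ≤ ENNReal.ofReal (1 / 4) := by
    refine (measure_iUnion_le _).trans ?_
    refine (ENNReal.tsum_le_tsum fun a => volume_bad a).trans ?_
    have h3 : ∀ a, ENNReal.ofReal (th a) ≤ ENNReal.ofReal ((1 / 8) * (1 / 2) ^ a) := by
      intro a
      apply ENNReal.ofReal_le_ofReal
      refine (th_le a).trans (le_of_eq ?_)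
      rw [pow_add]
      norm_num
      ring
    refine (ENNReal.tsum_le_tsum h3).trans ?_
    rw [← ENNReal.ofReal_tsum_of_nonneg (fun a => by positivity)
      (summable_geometric_two.mul_left _), tsum_mul_left, tsum_geometric_two]
    norm_num
  have h3 : volume (Set.Ico (0 : ℝ) 1) ≤ volume EE + ENNReal.ofReal (1 / 4) :=
    (measure_mono h1).trans ((measure_union_le _ _).trans (add_le_add_right h2 _))
  rw [Real.volume_Ico, sub_zero] at h3
  by_contra h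
  have h4 : volume EE = 0 := le_antisymm (not_lt.1 h) bot_le
  rw [h4, zero_add] at h3
  rw [ENNReal.ofReal_le_ofReal_iff (by norm_num)] at h3
  norm_num at h3

theorem G_ge (n a : ℕ) (h : blk n = a + 1) :
    4 * (4 : ℝ) ^ (a + 1) ≤ ∑ j ∈ range n, (4 : ℝ) ^ (blk j) * th (blk j) := by
  have hn := ((blk_eq_iff n (a + 1)).1 h).1
  have hpow : (256 : ℕ) ≤ 2 ^ (a + 8) := by
    calc (256 : ℕ) = 2 ^ 8 := by norm_num
      _ ≤ 2 ^ (a + 8) := Nat.pow_le_pow_right (by norm_num) (by omega)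
  have hdouble : 2 ^ (a + 9) = 2 * 2 ^ (a + 8) := by
    rw [show a + 9 = (a + 8) + 1 by ring, pow_succ]; ring
  have hsub : Ico (2 ^ (a + 8) - 256) (2 ^ (a + 9) - 256) ⊆ range n := by
    intro j hj
    rw [mem_Ico] at hj
    rw [mem_range]
    have : 2 ^ (a + 1 + 8) = 2 ^ (a + 9) := by ring
    omega
  have hblk : ∀ j ∈ Ico (2 ^ (a + 8) - 256) (2 ^ (a + 9) - 256), blk j = a := by
    intro j hj
    rw [mem_Ico] at hj
    rw [blk_eq_iff]
    omega
  have hth0 : ∀ b, 0 ≤ th b := fun b => le_trans (by positivity) (th_ge b)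
  have hcard : (Ico (2 ^ (a + 8) - 256) (2 ^ (a + 9) - 256)).card = 2 ^ (a + 8) := by
    rw [Nat.card_Ico, hdouble]
    omega
  have hsum : ∑ j ∈ Ico (2 ^ (a + 8) - 256) (2 ^ (a + 9) - 256), (4 : ℝ) ^ (blk j) * th (blk j)
      = (2 ^ (a + 8) : ℝ) * (4 ^ a * th a) := by
    rw [Finset.sum_congr rfl (fun j hj => by rw [hblk j hj]), Finset.sum_const, hcard,
      nsmul_eq_mul, Nat.cast_pow, Nat.cast_ofNat]
  calc 4 * (4 : ℝ) ^ (a + 1) = (2 ^ (a + 8) : ℝ) * (4 ^ a * (1 / 2) ^ (a + 4)) := by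
        have h1 : (2 : ℝ) ^ (a + 8) * (1 / 2) ^ (a + 4) = 16 := by
          rw [show a + 8 = (a + 4) + 4 by ring, pow_add (2 : ℝ) (a + 4) 4, mul_right_comm,
            ← mul_pow]
          norm_num
        calc 4 * (4 : ℝ) ^ (a + 1) = 16 * 4 ^ a := by rw [pow_succ]; ring
          _ = ((2 : ℝ) ^ (a + 8) * (1 / 2) ^ (a + 4)) * 4 ^ a := by rw [h1]
          _ = _ := by ring
    _ ≤ (2 ^ (a + 8) : ℝ) * (4 ^ a * th a) := by
        have := th_ge a
        (clear * - this; gcongr)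
    _ = ∑ j ∈ Ico (2 ^ (a + 8) - 256) (2 ^ (a + 9) - 256), (4 : ℝ) ^ (blk j) * th (blk j) :=
        hsum.symm
    _ ≤ ∑ j ∈ range n, (4 : ℝ) ^ (blk j) * th (blk j) :=
        Finset.sum_le_sum_of_subset_of_nonneg hsub fun j _ _ =>
          mul_nonneg (pow_four_pos _).le (hth0 _)

theorem G_ge' (n : ℕ) : 4 * (4 : ℝ) ^ (blk n) ≤
    ∑ j ∈ range n, (4 : ℝ) ^ (blk j) * th (blk j) + 4 := by
  have hth0 : ∀ b, 0 ≤ th b := fun b => le_trans (by positivity) (th_ge b)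
  rcases Nat.eq_zero_or_pos (blk n) with h | h
  · rw [h]
    have : (0 : ℝ) ≤ ∑ j ∈ range n, (4 : ℝ) ^ (blk j) * th (blk j) :=
      Finset.sum_nonneg fun j _ => mul_nonneg (pow_four_pos _).le (hth0 _)
    norm_num
    exact this
  · obtain ⟨a, ha⟩ : ∃ a, blk n = a + 1 := ⟨blk n - 1, by omega⟩
    have := G_ge n a ha
    rw [ha]
    linarith only [this]

/-- the key translation -/
theorem exists_shift : ∃ (c : ℝ) (E : Set ℝ) (C : ℝ), MeasurableSet E ∧ 0 < volume E ∧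
    ∀ t ∈ E, ∀ n : ℤ, hp (t + c) n - hp t (n + 1) ≤ C := by
  refine ⟨cc 0, EE, 4, EE_measurable, EE_pos, ?_⟩
  rintro t ⟨_, ht⟩ n
  have hph : ∀ a, ph a (t + cc 0) = ph a t + th a := fun a => ph_shift a t (ht a)
  have hth0 : ∀ b, 0 ≤ th b := fun b => le_trans (by positivity) (th_ge b)
  have hr : ∀ j, dr (t + cc 0) j = dr t j + 4 ^ (blk j) * th (blk j) := by
    intro j; unfold dr; rw [hph]; ring
  have hl : ∀ j, dl (t + cc 0) j = dl t j - 4 ^ (blk j) * th (blk j) := by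
    intro j; unfold dl; rw [hph]; ring
  unfold hp
  rcases le_or_gt 0 n with h | h
  · obtain ⟨m, rfl⟩ := Int.eq_ofNat_of_zero_le h
    have e : ((m : ℤ) + 1) = ((m + 1 : ℕ) : ℤ) := by push_cast; ring
    rw [e, hh_natCast, hh_natCast, Finset.sum_range_succ, Finset.sum_congr rfl fun j _ => hr j,
      Finset.sum_add_distrib]
    have h1 := G_ge' m
    have h2 : dr t m ≤ 2 * 4 ^ (blk m) := by
      unfold dr
      have := ph_lt_one (blk m) t
      nlinarith only [this, pow_four_pos (blk m)]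
    have h3 := pow_four_pos (blk m)
    linarith
  · obtain ⟨m, hm⟩ : ∃ m : ℕ, n = -((m + 1 : ℕ) : ℤ) := ⟨(-n - 1).toNat, by omega⟩
    have e : n + 1 = -(m : ℤ) := by omega
    rw [e, hm, hh_neg_natCast, hh_neg_natCast, Finset.sum_congr rfl fun j _ => hl j,
      Finset.sum_sub_distrib, Finset.sum_range_succ, Finset.sum_range_succ]
    have h1 := G_ge' m
    have h2 : dl t m ≤ 4 * 4 ^ (blk m) := by
      unfold dl
      have := ph_nonneg (blk m) t
      nlinarith only [this, pow_four_pos (blk m)]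
    have h3 : 0 ≤ (4 : ℝ) ^ (blk m) * th (blk m) := mul_nonneg (pow_four_pos _).le (hth0 _)
    linarith

end Vale.Agent.P131
end
end

section

section

namespace Vale.Agent.P131

open MeasureTheory Finset
open scoped ENNReal

theorem mp_shift (s : ℝ) (k : ℤ) :
    MeasurePreserving (fun p : ℝ × ℤ => (p.1 - s, p.2 - k)) mu mu := by
  have h1 : MeasurePreserving (fun t : ℝ => t - s) volume volume :=
    measurePreserving_sub_right volume s
  have h2 : MeasurePreserving (fun n : ℤ => n - k) Measure.count Measure.count :=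
    measurePreserving_sub_right Measure.count k
  exact h1.prod h2

theorem ae_mu_iff {p : ℝ × ℤ → Prop} (hp : ∀ᵐ q ∂mu, p q) : ∀ᵐ t : ℝ, ∀ n : ℤ, p (t, n) := by
  have h := Measure.ae_ae_of_ae_prod (μ := (volume : Measure ℝ)) (ν := (Measure.count : Measure ℤ)) hp
  filter_upwards [h] with t ht
  have h2 : ∀ n ∈ (Set.univ : Set ℤ), p (t, n) := by
    intro n _
    have h3 := ht
    rw [ae_iff, Measure.count_eq_zero_iff] at h3
    by_contra hn
    have : n ∈ ({a : ℤ | ¬ p (t, a)} : Set ℤ) := hn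
    rw [h3] at this
    exact this
  exact fun n => h2 n (Set.mem_univ n)

/-- the converse direction -/
theorem ae_mu_of {p : ℝ × ℤ → Prop} (hp : ∀ᵐ t : ℝ, ∀ n : ℤ, p (t, n)) : ∀ᵐ q ∂mu, p q := by
  have h : Measure.QuasiMeasurePreserving (Prod.fst : ℝ × ℤ → ℝ) mu volume :=
    Measure.quasiMeasurePreserving_fst
  have h2 := h.ae hp
  filter_upwards [h2] with q hq
  exact hq q.2

/-- the weight -/
noncomputable def wt (h : ℝ → ℤ → ℝ) (S : Set ℝ) (s : ℝ) (k : ℤ) (p : ℝ × ℤ) : ℂ :=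
  S.indicator (fun _ => (1 : ℂ)) p.1 * (Real.exp (h p.1 p.2 - h (p.1 - s) (p.2 - k)) : ℂ)

theorem wt_measurable (h : ℝ → ℤ → ℝ) (hm : ∀ n, Measurable fun t => h t n) (S : Set ℝ)
    (hS : MeasurableSet S) (s : ℝ) (k : ℤ) : Measurable (wt h S s k) := by
  refine measurable_from_prod_countable_left fun n => ?_
  unfold wt
  refine Measurable.mul (measurable_const.indicator hS) ?_
  refine Complex.measurable_ofReal.comp (Real.measurable_exp.comp ?_)
  exact (hm n).sub ((hm (n - k)).comp (measurable_id.sub_const s))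

theorem wt_bound (h : ℝ → ℤ → ℝ) (S : Set ℝ) (s : ℝ) (k : ℤ) (C : ℝ)
    (hC : ∀ t ∈ S, ∀ n, h t n - h (t - s) (n - k) ≤ C) (p : ℝ × ℤ) :
    ‖wt h S s k p‖ ≤ Real.exp C := by
  unfold wt
  by_cases hp : p.1 ∈ S
  · rw [Set.indicator_of_mem hp, one_mul, Complex.norm_real, Real.norm_eq_abs, Real.abs_exp]
    exact Real.exp_le_exp.2 (hC p.1 hp p.2)
  · rw [Set.indicator_of_notMem hp, zero_mul, norm_zero]
    exact (Real.exp_pos C).le

theorem wt_memLp (h : ℝ → ℤ → ℝ) (hm : ∀ n, Measurable fun t => h t n) (S : Set ℝ)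
    (hS : MeasurableSet S) (s : ℝ) (k : ℤ) (C : ℝ)
    (hC : ∀ t ∈ S, ∀ n, h t n - h (t - s) (n - k) ≤ C) (ξ : Hs) :
    MemLp (fun p => wt h S s k p * (ξ : ℝ × ℤ → ℂ) p) 2 mu := by
  refine MemLp.of_le_mul (c := Real.exp C) (Lp.memLp ξ) ?_ ?_
  · exact (wt_measurable h hm S hS s k).aestronglyMeasurable.mul (Lp.aestronglyMeasurable ξ)
  · refine Filter.Eventually.of_forall fun p => ?_
    rw [norm_mul]
    exact mul_le_mul_of_nonneg_right (wt_bound h S s k C hC p) (norm_nonneg _)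

/-- the multiplication operator -/
theorem exists_mulOp (h : ℝ → ℤ → ℝ) (hm : ∀ n, Measurable fun t => h t n) (S : Set ℝ)
    (hS : MeasurableSet S) (s : ℝ) (k : ℤ) (C : ℝ)
    (hC : ∀ t ∈ S, ∀ n, h t n - h (t - s) (n - k) ≤ C) :
    ∃ B : Hs →L[ℂ] Hs, ∀ ξ : Hs, (B ξ : ℝ × ℤ → ℂ) =ᵐ[mu]
      fun p => wt h S s k p * (ξ : ℝ × ℤ → ℂ) p := by
  have hcoe : ∀ ξ : Hs, ((wt_memLp h hm S hS s k C hC ξ).toLp _ : ℝ × ℤ → ℂ) =ᵐ[mu]
      fun p => wt h S s k p * (ξ : ℝ × ℤ → ℂ) p := fun ξ => MemLp.coeFn_toLp _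
  let L : Hs →ₗ[ℂ] Hs :=
    { toFun := fun ξ => (wt_memLp h hm S hS s k C hC ξ).toLp _
      map_add' := by
        intro ξ η
        refine Lp.ext ?_
        filter_upwards [hcoe (ξ + η), hcoe ξ, hcoe η, Lp.coeFn_add ξ η,
          Lp.coeFn_add ((wt_memLp h hm S hS s k C hC ξ).toLp _)
            ((wt_memLp h hm S hS s k C hC η).toLp _)] with p h1 h2 h3 h4 h5
        rw [h1, h5, Pi.add_apply, h2, h3, h4, Pi.add_apply, mul_add]
      map_smul' := by
        intro c ξ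
        refine Lp.ext ?_
        filter_upwards [hcoe (c • ξ), hcoe ξ, Lp.coeFn_smul c ξ,
          Lp.coeFn_smul c ((wt_memLp h hm S hS s k C hC ξ).toLp _)] with p h1 h2 h3 h4
        simp only [RingHom.id_apply]
        rw [h1, h4, Pi.smul_apply, h2, h3, Pi.smul_apply, smul_eq_mul, smul_eq_mul]
        ring }
  refine ⟨L.mkContinuous (Real.exp C) fun ξ => ?_, fun ξ => hcoe ξ⟩
  refine Lp.norm_le_mul_norm_of_ae_le_mul ?_
  filter_upwards [hcoe ξ] with p h1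
  have h2 : ((L ξ : Hs) : ℝ × ℤ → ℂ) p = wt h S s k p * (ξ : ℝ × ℤ → ℂ) p := h1
  rw [h2, norm_mul]
  exact mul_le_mul_of_nonneg_right (wt_bound h S s k C hC p) (norm_nonneg _)

theorem exists_op (h : ℝ → ℤ → ℝ) (hm : ∀ n, Measurable fun t => h t n) (S : Set ℝ)
    (hS : MeasurableSet S) (s : ℝ) (k : ℤ) (C : ℝ)
    (hC : ∀ t ∈ S, ∀ n, h t n - h (t - s) (n - k) ≤ C) :
    ∃ A : Hs →L[ℂ] Hs, ∀ ξ : Hs, ∀ᵐ t : ℝ, ∀ n : ℤ,
      (A ξ : ℝ × ℤ → ℂ) (t, n) =
        S.indicator (fun _ => (1 : ℂ)) t * (Real.exp (h t n - h (t - s) (n - k)) : ℂ) *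
          (ξ : ℝ × ℤ → ℂ) (t - s, n - k) := by
  obtain ⟨B, hB⟩ := exists_mulOp h hm S hS s k C hC
  let U : Hs →ₗᵢ[ℂ] Hs := Lp.compMeasurePreservingₗᵢ ℂ _ (mp_shift s k)
  have hU : ∀ ξ : Hs, (U ξ : ℝ × ℤ → ℂ) =ᵐ[mu]
      fun p => (ξ : ℝ × ℤ → ℂ) (p.1 - s, p.2 - k) := fun ξ =>
    Lp.coeFn_compMeasurePreserving ξ (mp_shift s k)
  refine ⟨B ∘L U.toContinuousLinearMap, fun ξ => ?_⟩
  have key : ∀ᵐ p ∂mu, ((B (U ξ) : Hs) : ℝ × ℤ → ℂ) p =
      wt h S s k p * (ξ : ℝ × ℤ → ℂ) (p.1 - s, p.2 - k) := by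
    filter_upwards [hB (U ξ), hU ξ] with p h1 h2
    rw [h1, h2]
  exact ae_mu_iff key

/-- two such operators commute if one of them is the fiberwise shift -/
theorem op_comm (h : ℝ → ℤ → ℝ) (S : Set ℝ) (s : ℝ) (k : ℤ) (A T : Hs →L[ℂ] Hs)
    (hA : ∀ ξ : Hs, ∀ᵐ t : ℝ, ∀ n : ℤ,
      (A ξ : ℝ × ℤ → ℂ) (t, n) =
        S.indicator (fun _ => (1 : ℂ)) t * (Real.exp (h t n - h (t - s) (n - k)) : ℂ) *
          (ξ : ℝ × ℤ → ℂ) (t - s, n - k))
    (hT : ∀ ξ : Hs, ∀ᵐ t : ℝ, ∀ n : ℤ,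
      (T ξ : ℝ × ℤ → ℂ) (t, n) =
        (Real.exp (h t n - h t (n - 1)) : ℂ) * (ξ : ℝ × ℤ → ℂ) (t, n - 1)) :
    A ∘L T = T ∘L A := by
  refine ContinuousLinearMap.ext fun ξ => Lp.ext (ae_mu_of ?_)
  have hq : Measure.QuasiMeasurePreserving (fun t : ℝ => t - s) volume volume :=
    (measurePreserving_sub_right volume s).quasiMeasurePreserving
  filter_upwards [hA (T ξ), hT (A ξ), hA ξ, hq.ae (hT ξ)] with t h1 h2 h3 h4
  intro n
  show ((A (T ξ) : Hs) : ℝ × ℤ → ℂ) (t, n) = ((T (A ξ) : Hs) : ℝ × ℤ → ℂ) (t, n)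
  rw [h1 n, h2 n, h3 (n - 1), h4 (n - k)]
  have e1 : n - 1 - k = n - k - 1 := by ring
  rw [e1]
  have e2 : (Real.exp (h t n - h (t - s) (n - k)) : ℂ) *
      (Real.exp (h (t - s) (n - k) - h (t - s) (n - k - 1)) : ℂ) =
      (Real.exp (h t n - h t (n - 1)) : ℂ) *
      (Real.exp (h t (n - 1) - h (t - s) (n - k - 1)) : ℂ) := by
    rw [← Complex.ofReal_mul, ← Complex.ofReal_mul, ← Real.exp_add, ← Real.exp_add]
    congr 2
    ring
  linear_combination (S.indicator (fun _ => (1 : ℂ)) t *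
    (ξ : ℝ × ℤ → ℂ) (t - s, n - k - 1)) * e2

end Vale.Agent.P131
end
end

section

section

namespace Vale.Agent.P131

open MeasureTheory Finset
open scoped ENNReal

theorem ae_mu_of_bd110 {p : ℝ × ℤ → Prop} (h : ∀ᵐ t : ℝ, ∀ n : ℤ, p (t, n)) : ∀ᵐ x ∂mu, p x := by
  have h0 : volume {t : ℝ | ¬ ∀ n : ℤ, p (t, n)} = 0 := h
  have h1 : mu ({t : ℝ | ¬ ∀ n : ℤ, p (t, n)} ×ˢ (Set.univ : Set ℤ)) = 0 := by
    unfold mu
    rw [Measure.prod_prod, h0, zero_mul]
  refine measure_mono_null ?_ h1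
  rintro ⟨t, n⟩ hx
  exact ⟨fun h2 => hx (h2 n), Set.mem_univ _⟩

theorem measurable_ne (ξ : Hs) (n : ℤ) : MeasurableSet {t : ℝ | (ξ : ℝ × ℤ → ℂ) (t, n) ≠ 0} := by
  have h1 : StronglyMeasurable (ξ : ℝ × ℤ → ℂ) := Lp.stronglyMeasurable ξ
  have h2 : Measurable fun t : ℝ => (ξ : ℝ × ℤ → ℂ) (t, n) :=
    h1.measurable.comp (measurable_id.prodMk measurable_const)
  exact (h2 (measurableSet_singleton (0 : ℂ)).compl)

theorem integrable_sq (ξ : Hs) : Integrable (fun x => ‖(ξ : ℝ × ℤ → ℂ) x‖ ^ 2) mu :=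
  (Lp.memLp ξ).integrable_norm_pow (by norm_num)

theorem fiber_summable (ξ : Hs) :
    ∀ᵐ t : ℝ, Summable fun k : ℤ => ‖(ξ : ℝ × ℤ → ℂ) (t, k)‖ ^ 2 := by
  have h1 := (integrable_sq ξ)
  unfold mu at h1
  filter_upwards [h1.prod_right_ae] with t ht
  have h2 := integrable_count_iff.1 ht
  refine h2.congr fun k => ?_
  exact Real.norm_of_nonneg (sq_nonneg ‖(ξ : ℝ × ℤ → ℂ) (t, k)‖)

theorem exists_ne (ξ : Hs) (hξ : ξ ≠ 0) :
    ∃ n : ℤ, 0 < volume {t : ℝ | (ξ : ℝ × ℤ → ℂ) (t, n) ≠ 0} := by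
  by_contra hc
  push Not at hc
  apply hξ
  apply Lp.ext
  have h1 : ∀ᵐ t : ℝ, ∀ n : ℤ, (ξ : ℝ × ℤ → ℂ) (t, n) = 0 := by
    rw [ae_all_iff]
    intro n
    exact le_antisymm (hc n) zero_le
  filter_upwards [ae_mu_of_bd110 (p := fun x => (ξ : ℝ × ℤ → ℂ) x = 0) h1,
    Lp.coeFn_zero ℂ 2 mu] with x hx hx0
  rw [hx, hx0]
  rfl

theorem fiber_orth (h : ℝ → ℤ → ℝ) (ξ η : Hs) (m : ℕ)
    (horth : ∀ S : Set ℝ, MeasurableSet S → ∃ ζ : Hs, inner ℂ η ζ = 0 ∧ ∀ᵐ t : ℝ, ∀ n : ℤ,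
      (ζ : ℝ × ℤ → ℂ) (t, n) =
        S.indicator (fun _ => (1 : ℂ)) t * (Real.exp (h t n - h t (n - m)) : ℂ) *
          (ξ : ℝ × ℤ → ℂ) (t, n - m)) :
    ∀ᵐ t : ℝ, ∑' k : ℤ, (Real.exp (h t (k + m) - h t k) : ℂ) *
      ((ξ : ℝ × ℤ → ℂ) (t, k) * (starRingEnd ℂ) ((η : ℝ × ℤ → ℂ) (t, k + m))) = 0 := by
  obtain ⟨ζ₀, -, h0⟩ := horth Set.univ MeasurableSet.univ
  let f : ℝ × ℤ → ℂ := fun x => inner ℂ ((η : ℝ × ℤ → ℂ) x) ((ζ₀ : ℝ × ℤ → ℂ) x)
  have hf : Integrable f (volume.prod Measure.count) := L2.integrable_inner η ζ₀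
  have hF : Integrable (fun t : ℝ => ∫ n, f (t, n) ∂Measure.count) := hf.integral_prod_left
  have hz : ∀ s : Set ℝ, MeasurableSet s → volume s < ∞ →
      ∫ t in s, ∫ n, f (t, n) ∂Measure.count = 0 := by
    intro S hS _
    obtain ⟨ζ, h1, h2⟩ := horth S hS
    rw [L2.inner_def] at h1
    have h3 : ∀ᵐ x ∂mu, inner ℂ ((η : ℝ × ℤ → ℂ) x) ((ζ : ℝ × ℤ → ℂ) x) =
        (S ×ˢ (Set.univ : Set ℤ)).indicator f x := by
      apply ae_mu_of_bd110
      filter_upwards [h0, h2] with t ht0 ht2 n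
      rw [ht2]
      by_cases hts : t ∈ S
      · rw [Set.indicator_of_mem (show (t, n) ∈ S ×ˢ (Set.univ : Set ℤ) from ⟨hts, trivial⟩)]
        simp only [f]
        rw [ht0, Set.indicator_of_mem hts, Set.indicator_of_mem (Set.mem_univ t)]
      · rw [Set.indicator_of_notMem hts,
          Set.indicator_of_notMem (fun h9 : (t, n) ∈ S ×ˢ (Set.univ : Set ℤ) => hts h9.1)]
        simp
    rw [integral_congr_ae h3, integral_indicator (hS.prod MeasurableSet.univ)] at h1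
    unfold mu at h1
    rw [setIntegral_prod _ hf.integrableOn] at h1
    simpa only [Measure.restrict_univ] using h1
  have hae := hF.ae_eq_zero_of_forall_setIntegral_eq_zero hz
  filter_upwards [hae, h0, hf.prod_right_ae] with t ht ht0 hti
  have h4 := integral_countable hti
  rw [ht] at h4
  simp only [Pi.zero_apply] at h4
  have h5 : ∀ n : ℤ, (Measure.count : Measure ℤ).real {n} • f (t, n) = f (t, n) := by
    intro n
    simp only [Measure.real, MeasurableSpace.measurableSet_top, Measure.count_singleton', ENNReal.toReal_one, one_smul]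
  simp only [h5] at h4
  rw [← (Equiv.addRight (m : ℤ)).tsum_eq] at h4
  rw [h4]
  refine tsum_congr fun k => ?_
  simp only [f, Equiv.coe_addRight]
  rw [ht0]
  simp only [Complex.ofReal_exp, Complex.ofReal_sub, Set.mem_univ, Set.indicator_of_mem, add_sub_cancel_right, one_mul, RCLike.inner_apply]
  ring

end Vale.Agent.P131
end
end

section

section

namespace Vale.Agent.P131

open MeasureTheory Finset
open scoped ENNReal

/-! Ergodicity of dyadic translations. -/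

theorem exists_translate (Z V : Set ℝ) (hZ : MeasurableSet Z) (hV : MeasurableSet V)
    (hZ0 : 0 < volume Z) (hV0 : 0 < volume V) :
    ∃ x : ℝ, 0 < volume ({t : ℝ | t - x ∈ Z} ∩ V) := by
  by_contra hcon
  push Not at hcon
  have h0 : ∀ x : ℝ, volume ({t : ℝ | t - x ∈ Z} ∩ V) = 0 := fun x => le_antisymm (hcon x) bot_le
  have hm : ∀ x : ℝ, MeasurableSet {t : ℝ | t - x ∈ Z} := fun x =>
    hZ.preimage (measurable_id.sub_const x)
  have h1 : ∀ x : ℝ, volume ({t : ℝ | t - x ∈ Z} ∩ V) =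
      ∫⁻ t : ℝ, Z.indicator 1 (t - x) * V.indicator (1 : ℝ → ℝ≥0∞) t := by
    intro x
    rw [← lintegral_indicator_one ((hm x).inter hV)]
    refine lintegral_congr fun t => ?_
    by_cases h1 : t - x ∈ Z <;> by_cases h2 : t ∈ V <;> simp [h1, h2]
  have h2 : ∫⁻ x : ℝ, ∫⁻ t : ℝ, Z.indicator 1 (t - x) * V.indicator (1 : ℝ → ℝ≥0∞) t = 0 := by
    rw [lintegral_congr (fun x => (h1 x).symm.trans (h0 x))]
    simp
  rw [lintegral_lintegral_swap] at h2
  · have h3 : ∀ t : ℝ, ∫⁻ x : ℝ, Z.indicator 1 (t - x) * V.indicator (1 : ℝ → ℝ≥0∞) t =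
        volume Z * V.indicator (1 : ℝ → ℝ≥0∞) t := by
      intro t
      rw [lintegral_mul_const]
      · rw [lintegral_sub_left_eq_self (fun x => Z.indicator (1 : ℝ → ℝ≥0∞) x) t,
          lintegral_indicator_one hZ]
      · exact (measurable_one.indicator hZ).comp (measurable_const.sub measurable_id)
    rw [lintegral_congr h3, lintegral_const_mul _ (measurable_one.indicator hV),
      lintegral_indicator_one hV] at h2
    rcases mul_eq_zero.mp h2 with h | h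
    · exact hZ0.ne' h
    · exact hV0.ne' h
  · apply Measurable.aemeasurable
    apply Measurable.mul
    · exact (measurable_one.indicator hZ).comp (measurable_snd.sub measurable_fst)
    · exact (measurable_one.indicator hV).comp measurable_snd

theorem exists_dyadic_near (x : ℝ) {δ : ℝ} (hδ : 0 < δ) :
    ∃ (k : ℤ) (N : ℕ), |(k : ℝ) / 2 ^ N - x| < δ := by
  obtain ⟨N, hN⟩ := exists_pow_lt_of_lt_one hδ (by norm_num : (1 / 2 : ℝ) < 1)
  refine ⟨⌊x * 2 ^ N⌋, N, ?_⟩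
  have h2 : (0 : ℝ) < 2 ^ N := by positivity
  have h3 := Int.floor_le (x * 2 ^ N)
  have h4 := Int.lt_floor_add_one (x * 2 ^ N)
  have h5 : (⌊x * 2 ^ N⌋ : ℝ) / 2 ^ N ≤ x := by
    rw [div_le_iff₀ h2]; exact h3
  have h6 : x < (⌊x * 2 ^ N⌋ : ℝ) / 2 ^ N + (1 / 2) ^ N := by
    rw [one_div, inv_pow, ← one_div, ← add_div, lt_div_iff₀ h2]; exact h4
  rw [abs_lt]
  constructor <;> linarith

theorem exists_dyadic (Z V : Set ℝ) (hZ : MeasurableSet Z) (hV : MeasurableSet V)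
    (hZ0 : 0 < volume Z) (hV0 : 0 < volume V) :
    ∃ (k : ℤ) (N : ℕ), 0 < volume ({t : ℝ | t - k / 2 ^ N ∈ Z} ∩ V) := by
  by_contra hcon
  push Not at hcon
  have hm : ∀ x : ℝ, MeasurableSet {t : ℝ | t - x ∈ Z} := fun x =>
    hZ.preimage (measurable_id.sub_const x)
  have h0 : ∀ (k : ℤ) (N : ℕ), volume ({t : ℝ | t - k / 2 ^ N ∈ Z} ∩ V) = 0 := fun k N =>
    le_antisymm (hcon k N) bot_le
  set B : Set ℝ := ⋃ x : ℤ × ℕ, ({t : ℝ | t - x.1 / 2 ^ x.2 ∈ Z} ∩ V) with hBdef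
  have hB : volume B = 0 := measure_iUnion_null fun x => h0 x.1 x.2
  have hBm : MeasurableSet B := MeasurableSet.iUnion fun x => (hm _).inter hV
  have hV'0 : 0 < volume (V \ B) := by
    rw [measure_sdiff_null hB]
    exact hV0
  obtain ⟨x, hx⟩ := exists_translate Z (V \ B) hZ (hV.diff hBm) hZ0 hV'0
  have hst := Measure.sub_mem_nhds_zero_of_addHaar_pos volume ({t : ℝ | t - x ∈ Z} ∩ (V \ B))
    ((hm x).inter (hV.diff hBm)) hx
  obtain ⟨δ, hδ, hball⟩ := Metric.mem_nhds_iff.mp hst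
  obtain ⟨k, N, hkN⟩ := exists_dyadic_near x hδ
  have hmem : (k : ℝ) / 2 ^ N - x ∈ Metric.ball (0 : ℝ) δ := by
    rw [Metric.mem_ball, dist_zero_right, Real.norm_eq_abs]
    exact hkN
  obtain ⟨a, ha, b, hb, hab⟩ := Set.mem_sub.mp (hball hmem)
  have h1 : a - (k : ℝ) / 2 ^ N ∈ Z := by
    have : a - (k : ℝ) / 2 ^ N = b - x := by linarith only [hab]
    rw [this]
    exact hb.1
  apply ha.2.2
  exact Set.mem_iUnion.mpr ⟨(k, N), h1, ha.2.1⟩

end Vale.Agent.P131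
end
end

section

section

/-! P131: the example on `L^2(R x Z)`, assembled from the other modules. Owner: helper20 -/

namespace Vale.Agent.P131

open MeasureTheory Finset
open scoped ENNReal

/-- an almost everywhere statement on the product gives one on all fibers -/
theorem ex_ae_fiber {P : ℝ × ℤ → Prop} (h : ∀ᵐ p ∂mu, P p) : ∀ᵐ t : ℝ, ∀ n : ℤ, P (t, n) := by
  have h1 := Measure.ae_ae_of_ae_prod h
  filter_upwards [h1] with t ht n
  exact (Measure.ae_count_iff.mp ht) n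

/-- the images of an element of an invariant subspace under weighted translations -/
theorem ex_mem_of_op {T : Hs →L[ℂ] Hs}
    (hT : ∀ ξ : Hs, ∀ᵐ t : ℝ, ∀ n : ℤ, (T ξ : ℝ × ℤ → ℂ) (t, n) =
      (Real.exp (hp t n - hp t (n - 1)) : ℂ) * (ξ : ℝ × ℤ → ℂ) (t, n - 1))
    {M : Submodule ℂ Hs} (hinv : ∀ A : Hs →L[ℂ] Hs, A ∘L T = T ∘L A → ∀ x ∈ M, A x ∈ M)
    {S : Set ℝ} (hS : MeasurableSet S) (s : ℝ) (k : ℤ) (C : ℝ)
    (hC : ∀ t ∈ S, ∀ n, hp t n - hp (t - s) (n - k) ≤ C) {ξ : Hs} (hξ : ξ ∈ M) :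
    ∃ ζ ∈ M, ∀ᵐ t : ℝ, ∀ n : ℤ, (ζ : ℝ × ℤ → ℂ) (t, n) =
      S.indicator (fun _ => (1 : ℂ)) t * (Real.exp (hp t n - hp (t - s) (n - k)) : ℂ) *
        (ξ : ℝ × ℤ → ℂ) (t - s, n - k) := by
  obtain ⟨A, hA⟩ := exists_op hp hp_measurable S hS s k C hC
  exact ⟨A ξ, hinv A (op_comm hp S s k A T hA hT) ξ hξ, hA ξ⟩

/-- fibers of elements of `M` and of its orthogonal complement are separated -/
theorem ex_sep {T : Hs →L[ℂ] Hs}
    (hT : ∀ ξ : Hs, ∀ᵐ t : ℝ, ∀ n : ℤ, (T ξ : ℝ × ℤ → ℂ) (t, n) =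
      (Real.exp (hp t n - hp t (n - 1)) : ℂ) * (ξ : ℝ × ℤ → ℂ) (t, n - 1))
    {M : Submodule ℂ Hs} (hinv : ∀ A : Hs →L[ℂ] Hs, A ∘L T = T ∘L A → ∀ x ∈ M, A x ∈ M)
    {ξ η : Hs} (hξ : ξ ∈ M) (hη : η ∈ Mᗮ) :
    ∀ᵐ t : ℝ, ∀ i j : ℤ, (ξ : ℝ × ℤ → ℂ) (t, i) ≠ 0 → (η : ℝ × ℤ → ℂ) (t, j) ≠ 0 → j < i := by
  have h1 : ∀ m : ℕ, ∀ᵐ t : ℝ, ∑' k : ℤ, (Real.exp (hp t (k + m) - hp t k) : ℂ) *
      ((ξ : ℝ × ℤ → ℂ) (t, k) * (starRingEnd ℂ) ((η : ℝ × ℤ → ℂ) (t, k + m))) = 0 := by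
    intro m
    apply fiber_orth hp ξ η m
    intro S hS
    obtain ⟨ζ, hζM, hζ⟩ := ex_mem_of_op hT hinv hS 0 (m : ℤ) 0 (by
      intro t _ n
      rw [sub_zero]
      have := hp_antitone t (show n - (m : ℤ) ≤ n by omega)
      linarith) hξ
    refine ⟨ζ, (Submodule.mem_orthogonal' M η).mp hη ζ hζM, ?_⟩
    filter_upwards [hζ] with t ht n
    rw [ht n, sub_zero]
  obtain ⟨c, hc, hg⟩ := dr_growth
  filter_upwards [ae_all_iff.mpr h1, fiber_summable ξ, fiber_summable η] with t ht hu hv i j hi hj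
  have hv' : Summable fun k : ℤ => ‖(starRingEnd ℂ) ((η : ℝ × ℤ → ℂ) (t, k))‖ ^ 2 := by
    simpa using hv
  exact unicell hc (dr_mono t) (dl_mono t) (dr_le_dl t) (hg t)
    (u := fun k => (ξ : ℝ × ℤ → ℂ) (t, k))
    (v := fun k => (starRingEnd ℂ) ((η : ℝ × ℤ → ℂ) (t, k))) hu hv' ht hi (by simpa using hj)

/-- the operator is not scalar -/
theorem ex_nonscalar {T : Hs →L[ℂ] Hs}
    (hT : ∀ ξ : Hs, ∀ᵐ t : ℝ, ∀ n : ℤ, (T ξ : ℝ × ℤ → ℂ) (t, n) =
      (Real.exp (hp t n - hp t (n - 1)) : ℂ) * (ξ : ℝ × ℤ → ℂ) (t, n - 1)) (z : ℂ) :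
    T ≠ z • ContinuousLinearMap.id ℂ Hs := by
  intro hTz
  have hs : MeasurableSet (Set.Icc (0 : ℝ) 1 ×ˢ ({0} : Set ℤ)) :=
    measurableSet_Icc.prod (measurableSet_singleton 0)
  have hμ : mu (Set.Icc (0 : ℝ) 1 ×ˢ ({0} : Set ℤ)) ≠ ∞ := by
    rw [mu, Measure.prod_prod]
    simp only [Real.volume_Icc, sub_zero, ENNReal.ofReal_one, MeasurableSpace.measurableSet_top, Measure.count_singleton', mul_one, ne_eq, ENNReal.one_ne_top, not_false_eq_true]
  set χ : Hs := indicatorConstLp 2 hs hμ (1 : ℂ) with hχ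
  have h1 : ∀ᵐ t : ℝ, ∀ n : ℤ, (χ : ℝ × ℤ → ℂ) (t, n) =
      (Set.Icc (0 : ℝ) 1 ×ˢ ({0} : Set ℤ)).indicator (fun _ => (1 : ℂ)) (t, n) :=
    ex_ae_fiber (P := fun p => (χ : ℝ × ℤ → ℂ) p =
      (Set.Icc (0 : ℝ) 1 ×ˢ ({0} : Set ℤ)).indicator (fun _ => (1 : ℂ)) p)
      indicatorConstLp_coeFn
  have h2 : ∀ᵐ t : ℝ, ∀ n : ℤ, (T χ : ℝ × ℤ → ℂ) (t, n) = z * (χ : ℝ × ℤ → ℂ) (t, n) := by
    rw [hTz]
    exact ex_ae_fiber (P := fun p => (((z • ContinuousLinearMap.id ℂ Hs) χ : Hs) : ℝ × ℤ → ℂ) p =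
      z * (χ : ℝ × ℤ → ℂ) p) (Lp.coeFn_smul z χ)
  have h3 : ∀ᵐ t : ℝ, t ∉ Set.Icc (0 : ℝ) 1 := by
    filter_upwards [h1, h2, hT χ] with t ht1 ht2 ht3 ht
    have e1 := ht3 1
    rw [ht2 1, ht1 1, ht1 (1 - 1)] at e1
    simp only [Set.mem_prod, ht, Set.mem_singleton_iff, one_ne_zero, and_false, not_false_eq_true, Set.indicator_of_notMem, mul_zero, sub_self, Complex.ofReal_exp, Complex.ofReal_sub, and_self, Set.indicator_of_mem, mul_one] at e1
    exact Complex.exp_ne_zero _ e1.symm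
  have h4 : volume (Set.Icc (0 : ℝ) 1) = 0 := by
    have h5 := ae_iff.mp h3
    have h6 : {a : ℝ | ¬ a ∉ Set.Icc (0 : ℝ) 1} = Set.Icc (0 : ℝ) 1 := by
      ext a
      exact not_not
    rwa [h6] at h5
  simp at h4

theorem example_Hs : ∃ T : Hs →L[ℂ] Hs, (∀ z : ℂ, T ≠ z • ContinuousLinearMap.id ℂ Hs) ∧
    ∀ M : Submodule ℂ Hs, IsClosed (M : Set Hs) →
      (∀ A : Hs →L[ℂ] Hs, A ∘L T = T ∘L A → ∀ x ∈ M, A x ∈ M) → M = ⊥ ∨ M = ⊤ := by
  obtain ⟨T, hT0⟩ := exists_op hp hp_measurable Set.univ MeasurableSet.univ 0 1 0 (by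
    intro t _ n
    rw [sub_zero]
    have := hp_antitone t (show n - 1 ≤ n by omega)
    linarith)
  have hT : ∀ ξ : Hs, ∀ᵐ t : ℝ, ∀ n : ℤ, (T ξ : ℝ × ℤ → ℂ) (t, n) =
      (Real.exp (hp t n - hp t (n - 1)) : ℂ) * (ξ : ℝ × ℤ → ℂ) (t, n - 1) := by
    intro ξ
    filter_upwards [hT0 ξ] with t ht n
    rw [ht n]
    simp
  refine ⟨T, ex_nonscalar hT, ?_⟩
  intro M hM hinv
  by_contra hcon
  push Not at hcon
  obtain ⟨hbot, htop⟩ := hcon
  have : CompleteSpace M := hM.completeSpace_coe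
  have hperp : Mᗮ ≠ ⊥ := fun h => htop ((Submodule.orthogonal_eq_bot_iff).mp h)
  obtain ⟨η, hη, hη0⟩ := Submodule.exists_mem_ne_zero_of_ne_bot hperp
  obtain ⟨ξ₀, hξ₀, hξ₀0⟩ := Submodule.exists_mem_ne_zero_of_ne_bot hbot
  obtain ⟨j₀, hj₀⟩ := exists_ne η hη0
  -- moving by dyadic translations
  have hmove : ∀ (ξ : Hs), ξ ∈ M → ∀ i : ℤ, 0 < volume {t : ℝ | (ξ : ℝ × ℤ → ℂ) (t, i) ≠ 0} →
      ∀ V : Set ℝ, MeasurableSet V → 0 < volume V →
      ∃ ζ ∈ M, 0 < volume ({t : ℝ | (ζ : ℝ × ℤ → ℂ) (t, i) ≠ 0} ∩ V) := by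
    intro ξ hξ i hi V hV hV0
    obtain ⟨k, N, hkN⟩ := exists_dyadic _ V (measurable_ne ξ i) hV hi hV0
    obtain ⟨C, hC⟩ := hp_dyadic k N
    obtain ⟨ζ, hζM, hζ⟩ := ex_mem_of_op hT hinv MeasurableSet.univ ((k : ℝ) / 2 ^ N) 0 C (by
      intro t _ n
      rw [sub_zero]
      exact hC t n) hξ
    refine ⟨ζ, hζM, lt_of_lt_of_le hkN (measure_mono_ae ?_)⟩
    filter_upwards [hζ] with t ht htm
    refine ⟨?_, htm.2⟩
    have h1 : (ξ : ℝ × ℤ → ℂ) (t - (k : ℝ) / 2 ^ N, i) ≠ 0 := htm.1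
    show (ζ : ℝ × ℤ → ℂ) (t, i) ≠ 0
    rw [ht i, sub_zero]
    simpa using h1
  -- lower bound of the index
  have hlow : ∀ i : ℤ, (∃ ξ ∈ M, 0 < volume {t : ℝ | (ξ : ℝ × ℤ → ℂ) (t, i) ≠ 0}) → j₀ < i := by
    rintro i ⟨ξ, hξ, hi⟩
    obtain ⟨ζ, hζM, hζ⟩ := hmove ξ hξ i hi _ (measurable_ne η j₀) hj₀
    by_contra hji
    have h1 : volume ({t : ℝ | (ζ : ℝ × ℤ → ℂ) (t, i) ≠ 0} ∩
        {t : ℝ | (η : ℝ × ℤ → ℂ) (t, j₀) ≠ 0}) = 0 := by
      apply measure_mono_null _ (ae_iff.mp (ex_sep hT hinv hζM hη))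
      rintro t ⟨ht1, ht2⟩ hall
      exact hji (hall i j₀ ht1 ht2)
    exact hζ.ne' h1
  -- the least index
  obtain ⟨i₁, hi₁, hmin⟩ := Int.exists_least_of_bdd
    (P := fun i => ∃ ξ ∈ M, 0 < volume {t : ℝ | (ξ : ℝ × ℤ → ℂ) (t, i) ≠ 0})
    ⟨j₀, fun i hi => (hlow i hi).le⟩
    (by
      obtain ⟨i, hi⟩ := exists_ne ξ₀ hξ₀0
      exact ⟨i, ξ₀, hξ₀, hi⟩)
  obtain ⟨ξ, hξ, hi⟩ := hi₁
  obtain ⟨c, E, C, hE, hE0, hEC⟩ := exists_shift
  obtain ⟨ζ, hζM, hζ⟩ := hmove ξ hξ i₁ hi E hE hE0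
  have hS : MeasurableSet {t : ℝ | t - c ∈ E} := hE.preimage (measurable_id.sub_const c)
  obtain ⟨ω, hωM, hω⟩ := ex_mem_of_op hT hinv hS c (-1) C (by
    intro t ht n
    have := hEC (t - c) ht n
    rw [sub_add_cancel] at this
    rwa [sub_neg_eq_add]) hζM
  have hω0 : 0 < volume {t : ℝ | (ω : ℝ × ℤ → ℂ) (t, i₁ - 1) ≠ 0} := by
    have h1 : volume ((fun t : ℝ => t - c) ⁻¹' ({t : ℝ | (ζ : ℝ × ℤ → ℂ) (t, i₁) ≠ 0} ∩ E)) =
        volume ({t : ℝ | (ζ : ℝ × ℤ → ℂ) (t, i₁) ≠ 0} ∩ E) := by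
      simp only [sub_eq_add_neg]
      exact measure_preimage_add_right volume (-c) _
    rw [← h1] at hζ
    refine lt_of_lt_of_le hζ (measure_mono_ae ?_)
    filter_upwards [hω] with t ht htm
    have h2 : (ζ : ℝ × ℤ → ℂ) (t - c, i₁) ≠ 0 := htm.1
    have h3 : t ∈ {t : ℝ | t - c ∈ E} := htm.2
    show (ω : ℝ × ℤ → ℂ) (t, i₁ - 1) ≠ 0
    rw [ht (i₁ - 1), Set.indicator_of_mem h3, sub_neg_eq_add, sub_add_cancel]
    simpa using h2
  have := hmin (i₁ - 1) ⟨ω, hωM, hω0⟩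
  omega

end Vale.Agent.P131
end
end

section

section

namespace Vale.Agent.P131

open MeasureTheory Finset
open scoped ENNReal

/-! Transfer. -/

theorem countable_index {ι : Type*} {H : Type*} [NormedAddCommGroup H] [InnerProductSpace ℂ H]
    [CompleteSpace H] [TopologicalSpace.SeparableSpace H] (b : HilbertBasis ι ℂ H) :
    Countable ι := by
  classical
  refine Pairwise.countable_of_isOpen_disjoint (s := fun i => Metric.ball (b i) (1 / 2)) ?_
    (fun i => Metric.isOpen_ball) (fun i => ⟨b i, Metric.mem_ball_self (by norm_num)⟩)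
  intro i j hij
  have ho := b.orthonormal
  have h1 : ‖b i - b j‖ ^ 2 = 2 := by
    rw [@norm_sub_sq ℂ, ho.1 i, ho.1 j, ho.2 hij]
    norm_num
  have h2 : 1 ≤ dist (b i) (b j) := by
    rw [dist_eq_norm]
    nlinarith [norm_nonneg (b i - b j)]
  exact Metric.ball_disjoint_ball (by linarith)

theorem infinite_index {ι : Type*} {H : Type*} [NormedAddCommGroup H] [InnerProductSpace ℂ H]
    [CompleteSpace H] (hH : ¬ FiniteDimensional ℂ H) (b : HilbertBasis ι ℂ H) : Infinite ι := by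
  by_contra h
  have hf : Finite ι := not_infinite_iff_finite.mp h
  have := Fintype.ofFinite ι
  exact hH (Module.Finite.of_basis b.toOrthonormalBasis.toBasis)

theorem exists_equiv (H₁ : Type*) (H₂ : Type*) [NormedAddCommGroup H₁] [InnerProductSpace ℂ H₁]
    [CompleteSpace H₁] [TopologicalSpace.SeparableSpace H₁] (h₁ : ¬ FiniteDimensional ℂ H₁)
    [NormedAddCommGroup H₂] [InnerProductSpace ℂ H₂]
    [CompleteSpace H₂] [TopologicalSpace.SeparableSpace H₂] (h₂ : ¬ FiniteDimensional ℂ H₂) :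
    Nonempty (H₁ ≃ₗᵢ[ℂ] H₂) := by
  obtain ⟨w₁, b₁, -⟩ := exists_hilbertBasis ℂ H₁
  obtain ⟨w₂, b₂, -⟩ := exists_hilbertBasis ℂ H₂
  have c₁ := countable_index b₁
  have c₂ := countable_index b₂
  have i₁ := infinite_index h₁ b₁
  have i₂ := infinite_index h₂ b₂
  obtain ⟨d₁⟩ := nonempty_denumerable w₁
  obtain ⟨d₂⟩ := nonempty_denumerable w₂
  let e : w₁ ≃ w₂ := (Denumerable.eqv w₁).trans (Denumerable.eqv w₂).symm
  have ho : Orthonormal ℂ (fun i => b₂ (e i)) := b₂.orthonormal.comp e e.injective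
  have hr : Set.range (fun i => b₂ (e i)) = Set.range b₂ := by
    have : (fun i => b₂ (e i)) = b₂ ∘ e := rfl
    rw [this]
    exact e.surjective.range_comp _
  let b₂' : HilbertBasis w₁ ℂ H₂ := HilbertBasis.mk ho (by
    rw [hr]
    exact b₂.dense_span.ge)
  exact ⟨b₁.repr.trans b₂'.repr.symm⟩

theorem not_finite_of_transitive (H : Type*) [NormedAddCommGroup H] [InnerProductSpace ℂ H]
    (T : H →L[ℂ] H) (hT : ∀ z : ℂ, T ≠ z • ContinuousLinearMap.id ℂ H)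
    (htr : ∀ M : Submodule ℂ H, IsClosed (M : Set H) →
      (∀ A : H →L[ℂ] H, A ∘L T = T ∘L A → ∀ x ∈ M, A x ∈ M) → M = ⊥ ∨ M = ⊤) :
    ¬ FiniteDimensional ℂ H := by
  intro hfin
  have hnt : Nontrivial H := by
    by_contra h
    rw [not_nontrivial_iff_subsingleton] at h
    apply hT 0
    ext x
    exact Subsingleton.elim _ _
  obtain ⟨z, hz⟩ := Module.End.exists_eigenvalue (T : Module.End ℂ H)
  have hmem : ∀ x, x ∈ Module.End.eigenspace (T : Module.End ℂ H) z ↔ T x = z • x := by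
    intro x
    rw [Module.End.mem_eigenspace_iff]
    rfl
  rcases htr (Module.End.eigenspace (T : Module.End ℂ H) z) (Submodule.closed_of_finiteDimensional _)
    (by
      intro A hA x hx
      rw [hmem] at hx ⊢
      have h1 : T (A x) = A (T x) := by
        have := congrArg (fun B : H →L[ℂ] H => B x) hA
        simpa using this.symm
      rw [h1, hx, map_smul]) with h | h
  · exact hz h
  · apply hT z
    ext x
    have : x ∈ Module.End.eigenspace (T : Module.End ℂ H) z := by rw [h]; trivial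
    rw [hmem] at this
    simpa using this

instance : SigmaFinite mu := by
  unfold mu
  infer_instance

instance : TopologicalSpace.SeparableSpace Hs := by
  unfold Hs
  have : Fact ((2 : ℝ≥0∞) ≠ ∞) := ⟨by norm_num⟩
  infer_instance

/-- the main theorem, from the example on the space `Hs` -/
theorem main_of_example (hex : ∃ T : Hs →L[ℂ] Hs, (∀ z : ℂ, T ≠ z • ContinuousLinearMap.id ℂ Hs) ∧
    ∀ M : Submodule ℂ Hs, IsClosed (M : Set Hs) →
      (∀ A : Hs →L[ℂ] Hs, A ∘L T = T ∘L A → ∀ x ∈ M, A x ∈ M) → M = ⊥ ∨ M = ⊤)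
    (H : Type*) [NormedAddCommGroup H] [InnerProductSpace ℂ H]
    [CompleteSpace H] [TopologicalSpace.SeparableSpace H] (hH : ¬ FiniteDimensional ℂ H) :
    ∃ T : H →L[ℂ] H, (∀ z : ℂ, T ≠ z • ContinuousLinearMap.id ℂ H) ∧
    ∀ M : Submodule ℂ H, IsClosed (M : Set H) →
      (∀ A : H →L[ℂ] H, A ∘L T = T ∘L A → ∀ x ∈ M, A x ∈ M) → M = ⊥ ∨ M = ⊤ := by
  obtain ⟨T₀, hT₀, htr⟩ := hex
  have hfin := not_finite_of_transitive Hs T₀ hT₀ htr
  obtain ⟨e⟩ := exists_equiv H Hs hH hfin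
  let E : H →L[ℂ] Hs := (e.toContinuousLinearEquiv : H →L[ℂ] Hs)
  let F : Hs →L[ℂ] H := (e.symm.toContinuousLinearEquiv : Hs →L[ℂ] H)
  have hEF : ∀ x, E (F x) = x := fun x => e.apply_symm_apply x
  have hFE : ∀ x, F (E x) = x := fun x => e.symm_apply_apply x
  refine ⟨F ∘L T₀ ∘L E, ?_, ?_⟩
  · intro z hz
    apply hT₀ z
    ext1 x
    have := congrArg (fun B : H →L[ℂ] H => E (B (F x))) hz
    simpa [hEF] using this
  · intro M hM hinv
    have hM' : IsClosed ((M.comap (F : Hs →ₗ[ℂ] H) : Submodule ℂ Hs) : Set Hs) :=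
      hM.preimage F.continuous
    rcases htr (M.comap (F : Hs →ₗ[ℂ] H)) hM' (by
      intro A hA x hx
      have h1 : (F ∘L A ∘L E) ∘L (F ∘L T₀ ∘L E) = (F ∘L T₀ ∘L E) ∘L (F ∘L A ∘L E) := by
        ext1 y
        have := congrArg (fun B : Hs →L[ℂ] Hs => F (B (E y))) hA
        simpa only [ContinuousLinearMap.comp_apply, hEF] using this
      have h2 := hinv _ h1 (F x) hx
      simpa [hEF] using h2) with h | h
    · left
      rw [Submodule.eq_bot_iff]
      intro x hx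
      have h1 : E x ∈ M.comap (F : Hs →ₗ[ℂ] H) := by
        change F (E x) ∈ M
        rw [hFE]
        exact hx
      rw [h, Submodule.mem_bot] at h1
      rw [← hFE x, h1, map_zero]
    · right
      rw [Submodule.eq_top_iff']
      intro x
      have h1 : E x ∈ M.comap (F : Hs →ₗ[ℂ] H) := by
        rw [h]
        trivial
      change F (E x) ∈ M at h1
      rwa [hFE] at h1

end Vale.Agent.P131
end
end

section

section

namespace Vale.Agent.P131

theorem main (H : Type*) [NormedAddCommGroup H] [InnerProductSpace ℂ H]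
    [CompleteSpace H] [TopologicalSpace.SeparableSpace H] (hH : ¬ FiniteDimensional ℂ H) :
    ∃ T : H →L[ℂ] H, (∀ z : ℂ, T ≠ z • ContinuousLinearMap.id ℂ H) ∧
    ∀ M : Submodule ℂ H, IsClosed (M : Set H) →
      (∀ A : H →L[ℂ] H, A ∘L T = T ∘L A → ∀ x ∈ M, A x ∈ M) → M = ⊥ ∨ M = ⊤ :=
  main_of_example example_Hs H hH

end Vale.Agent.P131
end
end
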